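import Vale.Agent.P026.M.W3
import Vale.Agent.P026.M.PS1b
import Vale.Agent.P026.M.PS4
import Vale.Agent.P026.M.PS

namespace Vale.Agent.P026.Main
open W1 W2 W3

theorem ps : PSStmt :=
  psS bas b8 sxx ln (ps2 (ps1bS bas sxx km gpo gamm)) ps3 (ps4S bas gamm) spl sum0

theorem zeta_ne_zero (s : ℂ) (hs : 26 / 27 < s.re) : riemannZeta s ≠ 0 := zero_free ps s hs

end Vale.Agent.P026.Main
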