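import Mathlib

/-! P026: Eisenstein integers, residue symbols, Gauss sums, the self-dual kernel. -/

noncomputable section
open Complex
open scoped Classical ComplexConjugate

namespace Vale.Agent.P026

/-- Eisenstein integers `a + b w`, `w^2 = -1 - w`. -/
abbrev O := QuadraticAlgebra ℤ (-1) (-1)

/-- `w` as an element of `O`. -/
def wO : O := ⟨0, 1⟩
/-- `lam = 1 + 2 w = sqrt (-3)`. -/
def lam : O := ⟨1, 2⟩
/-- complex cube root of unity -/
def om : ℂ := ⟨-1 / 2, Real.sqrt 3 / 2⟩

lemma om_sq : om * om = -1 - om := by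
  have h : Real.sqrt 3 * Real.sqrt 3 = 3 := Real.mul_self_sqrt (by norm_num)
  apply Complex.ext <;> simp [om] <;> nlinarith

/-- the embedding into `ℂ` -/
def toC : O →+* ℂ where
  toFun a := (a.re : ℂ) + (a.im : ℂ) * om
  map_one' := by simp [QuadraticAlgebra.re_one, QuadraticAlgebra.im_one]
  map_mul' a b := by
    simp only [QuadraticAlgebra.re_mul, QuadraticAlgebra.im_mul]
    push_cast
    linear_combination (-(a.im : ℂ) * b.im) * om_sq
  map_zero' := by simp
  map_add' a b := by simp; ring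

/-- integer norm `a^2 - a b + b^2` -/
def nz (a : O) : ℤ := a.re ^ 2 - a.re * a.im + a.im ^ 2
/-- norm as a natural number -/
def Nn (a : O) : ℕ := (nz a).natAbs
/-- norm as a real number -/
def N (a : O) : ℝ := (Nn a : ℝ)

lemma nz_nonneg (a : O) : 0 ≤ nz a := by unfold nz; nlinarith [sq_nonneg (2 * a.re - a.im), sq_nonneg a.im]
lemma nz_mul (a b : O) : nz (a * b) = nz a * nz b := by
  simp only [nz, QuadraticAlgebra.re_mul, QuadraticAlgebra.im_mul]; ring
lemma nz_eq_zero {a : O} (h : nz a = 0) : a = 0 := by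
  unfold nz at h
  have h1 : a.im = 0 := by nlinarith [sq_nonneg (2 * a.re - a.im), sq_nonneg a.im]
  have h2 : a.re = 0 := by rw [h1] at h; nlinarith [sq_nonneg a.re]
  ext <;> simp [h1, h2]

/-- conjugate -/
def cj (a : O) : O := ⟨a.re - a.im, -a.im⟩

def qdiv (x y : O) : O :=
  ⟨round (((x * cj y).re : ℚ) / nz y), round (((x * cj y).im : ℚ) / nz y)⟩

lemma rem_lt (x : O) {y : O} (hy : y ≠ 0) : nz (x - y * qdiv x y) < nz y := by
  have hn : 0 < nz y := lt_of_le_of_ne (nz_nonneg y) (fun h => hy (nz_eq_zero h.symm))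
  have hq : (0 : ℚ) < nz y := by exact_mod_cast hn
  set u : ℚ := ((x * cj y).re : ℚ) / nz y with hu
  set v : ℚ := ((x * cj y).im : ℚ) / nz y with hv
  have h1 := abs_sub_round u
  have h2 := abs_sub_round v
  have e1 : ((x * cj y).re : ℚ) = u * nz y := by rw [hu]; field_simp
  have e2 : ((x * cj y).im : ℚ) = v * nz y := by rw [hv]; field_simp
  have key : (nz (x - y * qdiv x y) : ℚ) * nz y = (nz y : ℚ) ^ 2 *
      ((u - round u) ^ 2 - (u - round u) * (v - round v) + (v - round v) ^ 2) := by
    have : nz (x - y * qdiv x y) * nz y = ((x * cj y).re - nz y * round u) ^ 2 -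
        ((x * cj y).re - nz y * round u) * ((x * cj y).im - nz y * round v) +
        ((x * cj y).im - nz y * round v) ^ 2 := by
      have hr : (qdiv x y).re = round u := rfl
      have hi : (qdiv x y).im = round v := rfl
      simp only [nz, cj, QuadraticAlgebra.re_mul, QuadraticAlgebra.im_mul,
        QuadraticAlgebra.re_sub, QuadraticAlgebra.im_sub, hr, hi]
      ring
    have h3 := congrArg (Int.cast : ℤ → ℚ) this
    push_cast at h3
    rw [h3, e1, e2]; ring
  rw [abs_le] at h1 h2
  have h4 : (u - round u) ^ 2 - (u - round u) * (v - round v) + (v - round v) ^ 2 < 1 := by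
    nlinarith
  have h5 : (nz (x - y * qdiv x y) : ℚ) < nz y := by
    by_contra hc
    push Not at hc
    nlinarith [mul_le_mul_of_nonneg_right hc hq.le, mul_pos hq hq]
  exact_mod_cast h5

instance : Nontrivial O := ⟨⟨0, 1, fun h => by
  have := congrArg QuadraticAlgebra.re h
  simp [QuadraticAlgebra.re_one] at this⟩⟩

instance euc : EuclideanDomain O :=
  { (inferInstance : CommRing O), (inferInstance : Nontrivial O) with
    quotient := qdiv
    remainder := fun x y => x - y * qdiv x y
    quotient_zero := fun x => by ext <;> simp [qdiv, nz]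
    quotient_mul_add_remainder_eq := fun x y => by ring
    r := fun a b => (nz a).natAbs < (nz b).natAbs
    r_wellFounded := (measure (fun a : O => (nz a).natAbs)).wf
    remainder_lt := fun x y hy => by
      have := rem_lt x hy
      have := nz_nonneg (x - y * qdiv x y)
      omega
    mul_left_not_lt := fun a b hb => by
      have hn : 0 < nz b := lt_of_le_of_ne (nz_nonneg b) (fun h => hb (nz_eq_zero h.symm))
      have h0 := nz_nonneg a
      have : nz a ≤ nz (a * b) := by rw [nz_mul]; nlinarith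
      have := nz_nonneg (a * b)
      omega }

example : IsPrincipalIdealRing O := inferInstance
example : UniqueFactorizationMonoid O := inferInstance

/-- additive character `e(Tr(z/lam))`, trivial on `O`, self-dual for `O` -/
def psi (z : ℂ) : ℂ := cexp (2 * Real.pi * I * ((2 * z.im / Real.sqrt 3 : ℝ) : ℂ))
/-- `psi (a / c)` -/
def eQ (a c : O) : ℂ := psi (toC a / toC c)
/-- primary: congruent to 1 mod 3 -/
def Prim (c : O) : Prop := (3 : O) ∣ c - 1
/-- a complete residue system mod `c` (meaningful for `c ≠ 0`) -/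
def Rs (c : O) : Finset O :=
  if h : (Set.range (fun q : O ⧸ Ideal.span {c} => Quotient.out q)).Finite then h.toFinset else ∅
/-- periodic mod `c` -/
def Pe (c : O) (F : O → ℂ) : Prop := ∀ a m, F (a + c * m) = F a
/-- cubic residue symbol at a prime `p` -/
def cubP (a p : O) : ℂ :=
  if p ∣ a then 0 else if p ∣ a ^ ((Nn p - 1) / 3) - 1 then 1
  else if p ∣ a ^ ((Nn p - 1) / 3) - wO then om else om ^ 2
/-- cubic residue symbol `(a/c)_3` -/
def cub (a c : O) : ℂ := ((UniqueFactorizationMonoid.factors c).map (cubP a)).prod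
/-- quadratic residue symbol at a prime `p` -/
def quadP (a p : O) : ℂ := if p ∣ a then 0 else if ∃ y, p ∣ y ^ 2 - a then 1 else -1
/-- quadratic residue symbol `(a/c)_2` -/
def quad (a c : O) : ℂ := ((UniqueFactorizationMonoid.factors c).map (quadP a)).prod
/-- sextic symbol -/
def sx (a c : O) : ℂ := quad a c * conj (cub a c)
/-- cubic Gauss sum of the conjugate symbol -/
def gs (c : O) : ℂ := ∑ r ∈ Rs c, conj (cub r c) * eQ r c
/-- quadratic Gauss sum -/
def g2 (c : O) : ℂ := ∑ r ∈ Rs c, quad r c * eQ r c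
/-- sextic Gauss sum -/
def g6 (c : O) : ℂ := ∑ r ∈ Rs c, sx r c * eQ r c
/-- cubic theta coefficient: `b (n u^3) = gs n * N u ^ 2`, `n` squarefree, else `0` -/
def bb (k : O) : ℂ :=
  if h : ∃ p : O × O, Prim p.1 ∧ Prim p.2 ∧ Squarefree p.1 ∧ k = p.1 * p.2 ^ 3
  then gs h.choose.1 * (N h.choose.2 : ℂ) ^ 2 else 0
/-- data of the kernel: `c = g c1`, `d = g d1`, `d1 e ≡ 1 mod c1`, `x^3 = g^2 y` -/
structure PhD (c d x g c1 d1 e y : O) : Prop where
  pg : Prim g
  hc : c = g * c1
  hd : d = g * d1
  he : c1 ∣ d1 * e - 1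
  hy : x ^ 3 = g ^ 2 * y
/-- the self-dual kernel -/
def Phi (c d x : O) : ℂ :=
  if h : ∃ p : O × O × O × O × O, PhD c d x p.1 p.2.1 p.2.2.1 p.2.2.2.1 p.2.2.2.2
  then bb h.choose.1 * cub h.choose.2.2.1 h.choose.2.1 *
    eQ (h.choose.2.2.2.2 * h.choose.2.2.2.1) h.choose.2.1
  else 0
/-- Moebius function on `O` -/
def mu (n : O) : ℂ := if Squarefree n then (-1) ^ (UniqueFactorizationMonoid.factors n).card else 0
/-- `(k/|k|)^j` -/
def ang (j : ℤ) (z : ℂ) : ℂ := (z / (‖z‖ : ℂ)) ^ j

end Vale.Agent.P026
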