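import Vale.Agent.P026.Defs

/-! P026 wave 1: arithmetic statements. -/

noncomputable section
open Complex
open scoped Classical ComplexConjugate

namespace Vale.Agent.P026

/-- norm, embedding, additive character -/
structure B1 : Prop where
  inj : Function.Injective toC
  N_eq : ∀ a, N a = ‖toC a‖ ^ 2
  Nn_mul : ∀ a b, Nn (a * b) = Nn a * Nn b
  N_mul : ∀ a b, N (a * b) = N a * N b
  N_pow : ∀ a (k : ℕ), N (a ^ k) = N a ^ k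
  N_one_le : ∀ a, a ≠ 0 → 1 ≤ N a
  N_zero : N 0 = 0
  unit_iff : ∀ a, IsUnit a ↔ Nn a = 1
  units : ∀ u : O, IsUnit u ↔ u ∈ ({1, -1, wO, -wO, wO ^ 2, -wO ^ 2} : Finset O)
  cj_mul : ∀ a, a * cj a = (Nn a : O)
  toC_cj : ∀ a, toC (cj a) = conj (toC a)
  toC_w : toC wO = om
  w3 : wO ^ 2 + wO + 1 = 0
  lam_sq : lam ^ 2 = -3
  toC_lam : toC lam = I * (Real.sqrt 3 : ℂ)
  prime_lam : Prime lam
  prime_two : Prime (2 : O)
  N_lam : Nn lam = 3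
  N_int : ∀ n : ℤ, N (n : O) = (n : ℝ) ^ 2
  psi_add : ∀ z w, psi (z + w) = psi z * psi w
  psi_zero : psi 0 = 1
  psi_neg : ∀ z, psi (-z) = conj (psi z)
  norm_psi : ∀ z, ‖psi z‖ = 1
  psi_toC : ∀ a, psi (toC a) = 1
  cont_psi : Continuous psi
  eQ_add : ∀ a b c, eQ (a + b) c = eQ a c * eQ b c
  eQ_neg : ∀ a c, eQ (-a) c = conj (eQ a c)
  eQ_dvd : ∀ a c, c ∣ a → eQ a c = 1
  eQ_mul : ∀ g a c, g ≠ 0 → eQ (g * a) (g * c) = eQ a c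
  eQ_triv : ∀ a c, c ≠ 0 → (∀ m, eQ (a * m) c = 1) → c ∣ a

/-- primary elements -/
structure B2 : Prop where
  one : Prim 1
  mul : ∀ a b, Prim a → Prim b → Prim (a * b)
  pow : ∀ a (k : ℕ), Prim a → Prim (a ^ k)
  cancel : ∀ a b, Prim a → Prim (a * b) → Prim b
  ne : ∀ a, Prim a → a ≠ 0
  cop : ∀ a, Prim a → IsCoprime a 3
  cop_iff : ∀ a, IsCoprime a 3 ↔ ¬ lam ∣ a
  ex : ∀ a, IsCoprime a 3 → ∃ u, IsUnit u ∧ Prim (u * a)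
  uniq : ∀ a b, Prim a → Prim b → Associated a b → a = b
  dec : ∀ a, a ≠ 0 → ∃ (e : O) (v : ℕ) (D : O), IsUnit e ∧ Prim D ∧ a = e * lam ^ v * D
  dec_uniq : ∀ (e e' : O) (v v' : ℕ) (D D' : O), IsUnit e → IsUnit e' → Prim D → Prim D' →
    e * lam ^ v * D = e' * lam ^ v' * D' → e = e' ∧ v = v' ∧ D = D'
  /-- induction over primary elements -/
  ind : ∀ P : O → Prop, P 1 → (∀ p (k : ℕ), Prime p → Prim p → P (p ^ k)) →
    (∀ a b, Prim a → Prim b → IsCoprime a b → P a → P b → P (a * b)) → ∀ c, Prim c → P c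
  ind1 : ∀ P : O → Prop, P 1 → (∀ p a, Prime p → Prim p → Prim a → P a → P (p * a)) →
    ∀ c, Prim c → P c
  /-- primary gcd -/
  gcd : ∀ c d, Prim c → ∃ g c1 d1, Prim g ∧ Prim c1 ∧ c = g * c1 ∧ d = g * d1 ∧ IsCoprime c1 d1
  N_mod : ∀ c, Prim c → Nn c % 3 = 1
  /-- sum over all nonzero elements -/
  tsum_dec : ∀ f : O → ℂ, Summable f → ∑' a, f a = f 0 +
    ∑ e ∈ ({1, -1, wO, -wO, wO ^ 2, -wO ^ 2} : Finset O), ∑' v : ℕ, ∑' D : O,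
      if Prim D then f (e * lam ^ v * D) else 0

/-- counting -/
structure B3 : Prop where
  fin : ∀ R : ℝ, {a : O | N a ≤ R}.Finite
  card_le : ∀ (R : ℝ) (s : Finset O), 0 ≤ R → (∀ a ∈ s, a ≠ 0 ∧ N a ≤ R) → (s.card : ℝ) ≤ 16 * R
  card_ge : ∀ R : ℝ, 1 ≤ R → ∃ s : Finset O, (∀ a ∈ s, (6 : O) ∣ a - 1 ∧ N a ≤ R) ∧
    R / 200 ≤ s.card
  summ : ∀ s : ℝ, 1 < s → Summable fun a : O => N a ^ (-s)
  summ' : ∀ s : ℝ, 2 < s → Summable fun a : O => (1 + ‖toC a‖) ^ (-s)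
  /-- lattice sums against a decaying weight at scale `T` -/
  scale : ∀ s : ℝ, 2 < s → ∃ C, ∀ T : ℝ, 1 ≤ T →
    ∑' a : O, (1 + ‖toC a‖ / T) ^ (-s) ≤ C * T ^ 2
  div : ∀ ε : ℝ, 0 < ε → ∃ C, ∀ a, a ≠ 0 → ∀ s : Finset O, (∀ d ∈ s, d ∣ a) →
    (s.card : ℝ) ≤ C * N a ^ ε

/-- residue systems -/
structure B4 : Prop where
  card : ∀ c, c ≠ 0 → (Rs c).card = Nn c
  ex : ∀ c a, c ≠ 0 → ∃ r ∈ Rs c, c ∣ a - r
  uniq : ∀ c r r', c ≠ 0 → r ∈ Rs c → r' ∈ Rs c → c ∣ r - r' → r = r'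
  pe_congr : ∀ c F a b, Pe c F → c ∣ a - b → F a = F b
  /-- any complete residue system gives the same sum -/
  sum_eq : ∀ (c : O) (F : O → ℂ) {ι : Type} (s : Finset ι) (f : ι → O), c ≠ 0 → Pe c F →
    (∀ a, ∃ i ∈ s, c ∣ a - f i) → (∀ i ∈ s, ∀ j ∈ s, c ∣ f i - f j → i = j) →
    ∑ i ∈ s, F (f i) = ∑ r ∈ Rs c, F r
  affine : ∀ c F u a, c ≠ 0 → Pe c F → IsCoprime u c →
    ∑ r ∈ Rs c, F (u * r + a) = ∑ r ∈ Rs c, F r
  assoc : ∀ c c' F, c ≠ 0 → Associated c c' → Pe c F → ∑ r ∈ Rs c', F r = ∑ r ∈ Rs c, F r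
  crt : ∀ c1 c2 F, c1 ≠ 0 → c2 ≠ 0 → IsCoprime c1 c2 → Pe (c1 * c2) F →
    ∑ r ∈ Rs (c1 * c2), F r = ∑ r1 ∈ Rs c1, ∑ r2 ∈ Rs c2, F (r1 * c2 + r2 * c1)
  lift : ∀ c1 c2 F, c1 ≠ 0 → c2 ≠ 0 → Pe (c1 * c2) F →
    ∑ r ∈ Rs (c1 * c2), F r = ∑ r1 ∈ Rs c1, ∑ r2 ∈ Rs c2, F (r1 + c1 * r2)
  lift' : ∀ c1 c2 F, c1 ≠ 0 → c2 ≠ 0 → Pe c1 F →
    ∑ r ∈ Rs (c1 * c2), F r = (N c2 : ℂ) * ∑ r ∈ Rs c1, F r
  orth : ∀ c a, c ≠ 0 → ∑ r ∈ Rs c, eQ (a * r) c = if c ∣ a then (N c : ℂ) else 0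
  finv : ∀ c F k, c ≠ 0 → Pe c F →
    F k = (N c : ℂ)⁻¹ * ∑ a ∈ Rs c, (∑ r ∈ Rs c, F r * eQ (-(a * r)) c) * eQ (a * k) c
  tsum_cls : ∀ c (f : O → ℂ), c ≠ 0 → Summable f →
    ∑' a, f a = ∑ r ∈ Rs c, ∑' m, f (r + c * m)

/-- the residue field of a prime -/
structure B5 : Prop where
  fermat : ∀ p a : O, Prime p → ¬ p ∣ a → p ∣ a ^ (Nn p - 1) - 1
  char : ∀ p : O, Prime p → ∃ l : ℕ, l.Prime ∧ p ∣ (l : O) ∧ (Nn p = l ∨ (Nn p = l ^ 2 ∧ Associated p l))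
  gen : ∀ p : O, Prime p → ∃ g, ¬ p ∣ g ∧ (∀ a, ¬ p ∣ a → ∃ k : ℕ, p ∣ a - g ^ k) ∧
    ∀ k : ℕ, p ∣ g ^ k - 1 → (Nn p - 1) ∣ k
  card : ∀ p : O, Prime p → Nat.card (O ⧸ Ideal.span {p}) = Nn p
  sum_q : ∀ (c : O) [Fintype (O ⧸ Ideal.span {c})] (G : O ⧸ Ideal.span {c} → ℂ), c ≠ 0 →
    ∑ r ∈ Rs c, G (Ideal.Quotient.mk _ r) = ∑ x, G x

/-- cubic symbol -/
structure B6 : Prop where
  prime : ∀ a p, Prime p → cub a p = cubP a p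
  mul_r : ∀ a c c', c ≠ 0 → c' ≠ 0 → cub a (c * c') = cub a c * cub a c'
  pow_r : ∀ a c (k : ℕ), c ≠ 0 → cub a (c ^ k) = cub a c ^ k
  unit_r : ∀ a u, IsUnit u → cub a u = 1
  mul_l : ∀ a b c, IsCoprime c 3 → cub (a * b) c = cub a c * cub b c
  pow_l : ∀ a c (k : ℕ), IsCoprime c 3 → cub (a ^ k) c = cub a c ^ k
  one_l : ∀ c, cub 1 c = 1
  neg_l : ∀ a c, IsCoprime c 3 → cub (-a) c = cub a c
  pe : ∀ c, Pe c (fun a => cub a c)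
  zero : ∀ a c, c ≠ 0 → ¬ IsCoprime a c → cub a c = 0
  cube : ∀ a c, IsCoprime a c → cub a c ^ 3 = 1
  norm : ∀ a c, IsCoprime a c → ‖cub a c‖ = 1
  norm_le : ∀ a c, ‖cub a c‖ ≤ 1
  conj_eq : ∀ a c, conj (cub a c) = cub a c ^ 2
  /-- defining congruence -/
  spec : ∀ a p, Prime p → IsCoprime p 3 → ∃ z : O, toC z = cub a p ∧ p ∣ a ^ ((Nn p - 1) / 3) - z ∧
    (z = 0 ∨ z = 1 ∨ z = wO ∨ z = wO ^ 2)
  spec' : ∀ a p (k : ℕ), Prime p → IsCoprime p 3 → p ∣ a ^ ((Nn p - 1) / 3) - wO ^ k →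
    cub a p = om ^ k
  eq_one : ∀ a p, Prime p → IsCoprime p 3 → ¬ p ∣ a → (cub a p = 1 ↔ ∃ y, p ∣ y ^ 3 - a)
  nontriv : ∀ p, Prime p → IsCoprime p 3 → ∃ a, cub a p = om
  sum_zero : ∀ p, Prime p → IsCoprime p 3 → ∑ r ∈ Rs p, cub r p = 0
  count : ∀ p a, Prime p → IsCoprime p 3 → ¬ p ∣ a →
    (((Rs p).filter fun y => p ∣ y ^ 3 - a).card : ℂ) = 1 + cub a p + conj (cub a p)
  cj_cj : ∀ a c, IsCoprime c 3 → cub (cj a) (cj c) = conj (cub a c)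

/-- quadratic symbol -/
structure B7 : Prop where
  prime : ∀ a p, Prime p → quad a p = quadP a p
  mul_r : ∀ a c c', c ≠ 0 → c' ≠ 0 → quad a (c * c') = quad a c * quad a c'
  pow_r : ∀ a c (k : ℕ), c ≠ 0 → quad a (c ^ k) = quad a c ^ k
  unit_r : ∀ a u, IsUnit u → quad a u = 1
  mul_l : ∀ a b c, IsCoprime c 2 → quad (a * b) c = quad a c * quad b c
  pow_l : ∀ a c (k : ℕ), IsCoprime c 2 → quad (a ^ k) c = quad a c ^ k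
  one_l : ∀ c, quad 1 c = 1
  pe : ∀ c, Pe c (fun a => quad a c)
  zero : ∀ a c, c ≠ 0 → ¬ IsCoprime a c → quad a c = 0
  sq : ∀ a c, IsCoprime a c → quad a c ^ 2 = 1
  norm : ∀ a c, IsCoprime a c → ‖quad a c‖ = 1
  norm_le : ∀ a c, ‖quad a c‖ ≤ 1
  conj_eq : ∀ a c, conj (quad a c) = quad a c
  sum_zero : ∀ p, Prime p → IsCoprime p 2 → ∑ r ∈ Rs p, quad r p = 0
  count : ∀ p a, Prime p → IsCoprime p 2 →
    (((Rs p).filter fun y => p ∣ y ^ 2 - a).card : ℂ) = 1 + quad a p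

/-- all basic facts -/
structure Bas : Prop where
  b1 : B1
  b2 : B2
  b3 : B3
  b4 : B4
  b5 : B5
  b6 : B6
  b7 : B7

/-- Gauss sums at a prime: `i`-th power of the sextic symbol -/
def GPStmt : Prop := ∀ (p : O) (i : ℕ), Prime p → IsCoprime p 3 → (IsCoprime p 2 ∨ 2 ∣ i) → ¬ 6 ∣ i →
  (∀ h, ∑ r ∈ Rs p, sx r p ^ i * eQ (r * h) p =
    conj (sx h p ^ i) * ∑ r ∈ Rs p, sx r p ^ i * eQ r p) ∧
  ‖∑ r ∈ Rs p, sx r p ^ i * eQ r p‖ ^ 2 = N p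

/-- Jacobi sum and cube of the Gauss sum -/
def JStmt : Prop := ∀ p, Prime p → Prim p →
  (∑ r ∈ Rs p, cub r p * cub (1 - r) p = -toC p) ∧
  conj (gs p) ^ 2 = -toC p * gs p ∧ gs p * conj (gs p) = N p

/-- Frobenius step of cubic reciprocity -/
def CR0Stmt : Prop := ∀ p q, Prime p → Prim p → Prime q → Prim q → IsCoprime q (p * cj p) →
  conj (cub (q * cj q) p) = cub (p ^ 2 * cj p) q

/-- cubic reciprocity -/
def CRStmt : Prop := ∀ a b, Prim a → Prim b → cub a b = cub b a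

/-- supplements: `(D/c)_3` depends on primary `c` mod `9 D` -/
def P9Stmt : Prop := ∀ D c c', D ≠ 0 → Prim c → Prim c' → 9 * D ∣ c - c' → cub D c = cub D c'

/-- quadratic exponential sum -/
def Gq (a n : O) : ℂ := ∑ x ∈ Rs n, eQ (a * x ^ 2) n

/-- Landsberg-Schaar -/
def LSStmt : Prop := ∀ a, a ≠ 0 → Gq 1 (4 * a) = 8 * (Real.sqrt (N a) : ℂ)

def QGStmt : Prop :=
  (∀ a n1 n2, n1 ≠ 0 → n2 ≠ 0 → IsCoprime n1 n2 → Gq a (n1 * n2) = Gq (a * n2) n1 * Gq (a * n1) n2) ∧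
  (∀ a n, IsCoprime n 2 → IsCoprime a n → Gq a n = quad a n * Gq 1 n) ∧
  (∀ n, IsCoprime n 2 → Squarefree n → Gq 1 n = g2 n)

/-- normalised quadratic Gauss sum sign -/
def gam (n : O) : ℂ := Gq 1 n / (Real.sqrt (N n) : ℂ)

/-- quadratic reciprocity package -/
structure QR : Prop where
  per : ∀ n n', IsCoprime n 2 → (4 : O) ∣ n - n' → gam n = gam n'
  norm : ∀ n, IsCoprime n 2 → ‖gam n‖ = 1
  g2_eq : ∀ n, IsCoprime n 2 → Squarefree n → g2 n = gam n * (Real.sqrt (N n) : ℂ)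
  recip : ∀ a b, IsCoprime a 2 → IsCoprime b 2 → IsCoprime a b →
    quad a b * quad b a * (gam a * gam b) = gam (a * b)
  qp : ∀ D n n', D ≠ 0 → IsCoprime n 2 → 4 * D ∣ n - n' → quad D n = quad D n'

/-- Gauss sums of squarefree moduli, duplication formula -/
structure HD : Prop where
  tw6 : ∀ n h, Prim n → IsCoprime n 2 → Squarefree n →
    ∑ r ∈ Rs n, sx r n * eQ (r * h) n = conj (sx h n) * g6 n
  tw3 : ∀ n h, IsCoprime n 3 → Squarefree n →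
    ∑ r ∈ Rs n, conj (cub r n) * eQ (r * h) n = cub h n * gs n
  tw2 : ∀ n h, IsCoprime n 2 → IsCoprime n 3 → Squarefree n →
    ∑ r ∈ Rs n, quad r n * eQ (r * h) n = quad h n * g2 n
  n6 : ∀ n, Prim n → IsCoprime n 2 → Squarefree n → ‖g6 n‖ ^ 2 = N n
  n3 : ∀ n, IsCoprime n 3 → Squarefree n → ‖gs n‖ ^ 2 = N n
  mul3 : ∀ a b, Prim a → Prim b → IsCoprime a b → gs (a * b) = gs a * gs b * cub a b
  dup : ∀ n, Prim n → IsCoprime n 2 → Squarefree n →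
    mu n * g6 n = conj (cub 2 n) * gam n * ang 1 (toC n) * gs n

/-- duplication at a prime -/
def HD0Stmt : Prop := ∀ p, Prime p → Prim p → IsCoprime p 2 →
  -g6 p * (N p : ℂ) = conj (cub 2 p) * g2 p * toC p * gs p

/-- the coefficients `bb` -/
structure BB : Prop where
  eq : ∀ n u, Prim n → Prim u → Squarefree n → bb (n * u ^ 3) = gs n * (N u : ℂ) ^ 2
  cases : ∀ k, bb k = 0 ∨ ∃ n u, Prim n ∧ Prim u ∧ Squarefree n ∧ k = n * u ^ 3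
  uniq : ∀ n u n' u', Prim n → Prim u → Squarefree n → Prim n' → Prim u' → Squarefree n' →
    n * u ^ 3 = n' * u' ^ 3 → n = n' ∧ u = u'
  one : bb 1 = 1
  pp0 : ∀ p (m : ℕ), Prime p → Prim p → bb (p ^ (3 * m)) = (N p : ℂ) ^ (2 * m)
  pp1 : ∀ p (m : ℕ), Prime p → Prim p → bb (p ^ (3 * m + 1)) = gs p * (N p : ℂ) ^ (2 * m)
  pp2 : ∀ p (m : ℕ), Prime p → Prim p → bb (p ^ (3 * m + 2)) = 0
  cube : ∀ k u, Prim k → Prim u → bb (k * u ^ 3) = bb k * (N u : ℂ) ^ 2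
  mul : ∀ a b, Prim a → Prim b → IsCoprime a b → bb (a * b) = bb a * bb b * cub a b
  norm_le : ∀ k, ‖bb k‖ ≤ N k ^ (2 / 3 : ℝ)
  summ : ∀ s : ℝ, 3 / 2 < s → Summable fun k => ‖bb k‖ * N k ^ (-s)
  /-- sums over `k = n u^3` -/
  tsum_eq : ∀ f : O → ℂ, Summable (fun k => bb k * f k) → ∑' k, bb k * f k =
    ∑' u : O, ∑' n : O, if Prim u ∧ Prim n ∧ Squarefree n then gs n * (N u : ℂ) ^ 2 * f (n * u ^ 3) else 0

/-- the kernel `Phi` -/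
structure PH : Prop where
  eq : ∀ c d x g c1 d1 e y, Prim c → PhD c d x g c1 d1 e y →
    Phi c d x = bb g * cub d1 c1 * eQ (y * e) c1
  zero : ∀ c d x g c1 d1, Prim g → c = g * c1 → d = g * d1 → IsCoprime c1 d1 → Prim c →
    ¬ g ^ 2 ∣ x ^ 3 → Phi c d x = 0
  pe_d : ∀ c x, Prim c → Pe c (fun d => Phi c d x)
  pe_x : ∀ c d, Prim c → Pe c (fun x => Phi c d x)
  scale : ∀ c d x s, Prim c → IsCoprime s c → Phi c (s ^ 3 * d) (s * x) = Phi c d x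
  norm_c : ∀ c d x, Prim c → ‖Phi c d x‖ ≤ N c ^ (2 / 3 : ℝ)
  norm_d : ∀ c d x, Prim c → d ≠ 0 → ‖Phi c d x‖ ≤ N d ^ (2 / 3 : ℝ)
  one : ∀ d x, Phi 1 d x = 1
  d0 : ∀ c x, Prim c → ¬ c ^ 2 ∣ x ^ 3 → Phi c 0 x = 0
  crt : ∀ c c' d x, Prim c → Prim c' → IsCoprime c c' →
    Phi (c * c') d x = cub c' c * Phi c (c' * d) x * Phi c' (c * d) x

/-- two-variable finite Fourier transform -/
def FT2 (c : O) (F : O → O → ℂ) (d' x' : O) : ℂ :=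
  ∑ d ∈ Rs c, ∑ x ∈ Rs c, F d x * eQ (d * d' + x * x') c

/-- self-duality at `c` -/
def SDat (c : O) : Prop := ∀ d' x', FT2 c (Phi c) d' x' = (N c : ℂ) * Phi c (27 * d') x'

/-- self-duality -/
def SDStmt : Prop := ∀ c, Prim c → SDat c

/-- unit part with character exponent `i`, level `p^m` -/
def EE (p : O) (i m : ℕ) (d x : O) : ℂ :=
  if h : ¬ p ∣ x ∧ ∃ e, p ^ m ∣ d * e - 1 then cub d p ^ i * eQ (x ^ 3 * h.2.choose) (p ^ m) else 0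

/-- stationary phase sum -/
def SE2Stmt : Prop := ∀ (p A : O) (i m : ℕ), Prime p → Prim p → 2 ≤ m → ¬ p ∣ A →
  ∑ r ∈ Rs (p ^ m), ∑ w ∈ Rs (p ^ m),
    (if p ∣ r * w then 0 else cub (r ^ 2 * w) p ^ i * eQ (-(A * (r * w * (r + w - 3)))) (p ^ m)) =
    (N p : ℂ) ^ m * eQ A (p ^ m)

def SEStmt : Prop := ∀ (p : O) (i m : ℕ), Prime p → Prim p → 2 ≤ m → ∀ d' x',
  FT2 (p ^ m) (EE p i m) d' x' = (N p : ℂ) ^ m * EE p i m (27 * d') x'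

/-- Cardano count (field form) -/
def CardStmt : Prop := ∀ (p d b B y : O), Prime p → Prim p → ¬ p ∣ d → ¬ p ∣ b → p ∣ 27 * B - d * b ^ 3 →
  (((Rs p).filter fun x => p ∣ x ^ 3 + d * b * x - d * y).card : ℂ) =
    1 + ∑ t ∈ (Rs p).filter (fun t => p ∣ t ^ 2 - y * t - B), cub (d * t) p

def SDk (k : ℕ) : Prop := ∀ p, Prime p → Prim p → SDat (p ^ k)
def SDrec : Prop := ∀ k, SDk k → SDk (k + 3) → SDk (k + 6)
def SDcrt : Prop := ∀ c c', Prim c → Prim c' → IsCoprime c c' → SDat c → SDat c' → SDat (c * c')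

end Vale.Agent.P026
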