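import Vale.Agent.P026.Stm1

/-! P026 wave 2: theta automorphy and the Voronoi formula. -/

noncomputable section
open Complex MeasureTheory Filter Topology
open scoped Classical ComplexConjugate

namespace Vale.Agent.P026

/-- covolume of `O` -/
def kap : ℂ := (Real.sqrt 3 : ℂ) / 2
/-- the six units -/
def U6 : Finset O := {1, -1, wO, -wO, wO ^ 2, -wO ^ 2}
def F1 (f : ℂ → ℂ) (ξ : ℂ) : ℂ := ∫ z, f z * psi (-(z * ξ))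
def F2 (f : ℂ × ℂ → ℂ) (ξ η : ℂ) : ℂ := ∫ p : ℂ × ℂ, f p * psi (-(p.1 * ξ + p.2 * η))

def PO1Stmt : Prop := ∀ (f : ℂ → ℂ) (K : ℝ), Continuous f → (∀ z, ‖f z‖ ≤ K * (1 + ‖z‖) ^ (-3 : ℝ)) →
  Summable (fun b : O => ‖F1 f (toC b)‖) → ∑' a : O, f (toC a) = kap⁻¹ * ∑' b : O, F1 f (toC b)

def PO2Stmt : Prop := ∀ (f : ℂ × ℂ → ℂ) (K : ℝ), Continuous f →
  (∀ p, ‖f p‖ ≤ K * (1 + ‖p.1‖) ^ (-3 : ℝ) * (1 + ‖p.2‖) ^ (-3 : ℝ)) →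
  Summable (fun b : O × O => ‖F2 f (toC b.1) (toC b.2)‖) →
  ∑' a : O × O, f (toC a.1, toC a.2) = (kap ^ 2)⁻¹ * ∑' b : O × O, F2 f (toC b.1) (toC b.2)

/-- Poisson with a periodic factor, two variables -/
def POP2Stmt : Prop := ∀ (f : ℂ × ℂ → ℂ) (K : ℝ) (P : O → O → ℂ) (q1 q2 : O), q1 ≠ 0 → q2 ≠ 0 →
  (∀ x, Pe q1 fun d => P d x) → (∀ d, Pe q2 fun x => P d x) → Continuous f →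
  (∀ p, ‖f p‖ ≤ K * (1 + ‖p.1‖) ^ (-3 : ℝ) * (1 + ‖p.2‖) ^ (-3 : ℝ)) →
  (∀ ξ η, ‖F2 f ξ η‖ ≤ K * (1 + ‖ξ‖) ^ (-3 : ℝ) * (1 + ‖η‖) ^ (-3 : ℝ)) →
  ∑' a : O × O, P a.1 a.2 * f (toC a.1, toC a.2) = (kap ^ 2 * N q1 * N q2)⁻¹ * ∑' b : O × O,
    (∑ r1 ∈ Rs q1, ∑ r2 ∈ Rs q2, P r1 r2 * eQ (r1 * b.1) q1 * eQ (r2 * b.2) q2) *
      F2 f (toC b.1 / toC q1) (toC b.2 / toC q2)

/-- `4 π² / 3` -/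
def sg : ℝ := 4 * Real.pi ^ 2 / 3

/-- Gaussian transforms -/
def GFStmt : Prop := ∀ (M : ℝ) (ξ : ℂ), 0 < M →
  F1 (fun z => cexp (-(‖z‖ ^ 2 / M : ℝ))) ξ = (Real.pi * M : ℝ) * cexp (-(sg * M * ‖ξ‖ ^ 2 : ℝ))

/-- Gaussian Poisson with a periodic factor -/
def GPOStmt : Prop := ∀ (P : O → ℂ) (q : O) (M : ℝ), q ≠ 0 → Pe q P → 0 < M →
  ∑' m : O, P m * cexp (-(N m / M : ℝ)) = (Real.pi * M : ℝ) / (kap * N q) *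
    ∑' b : O, (∑ r ∈ Rs q, P r * eQ (r * b) q) * cexp (-(sg * M * N b / N q : ℝ))

/-- periodic part of the kernel -/
def Per (d c x : O) : ℂ := Phi c d x * eQ (-x ^ 3) (c * d)

def PERStmt : Prop :=
  (∀ d c c' x x', d ≠ 0 → Prim c → Prim c' → 9 * d ∣ c - c' → d ∣ x - x' → Per d c x = Per d c' x') ∧
  (∀ (e : O) (v : ℕ) (D c x f : O), IsUnit e → Prim D → Prim c → lam ^ v ∣ c * D * e * f - 1 →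
    Per (e * lam ^ v * D) c x = cub (e * lam ^ v) c * conj (cub (e * lam ^ v) D) *
      Phi D (e * lam ^ v * c) (-x) * eQ (-(x ^ 3 * f)) (lam ^ v))

/-- Riemann sums -/
def RSStmt : Prop := ∀ (P : O → O → ℂ) (M : O) (G : ℂ × ℂ → ℂ) (K : ℝ), M ≠ 0 →
  (∀ x, Pe M fun c => P c x) → (∀ c, Pe M fun x => P c x) → Continuous G →
  (∀ p, ‖G p‖ ≤ K * (1 + ‖p.1‖) ^ (-3 : ℝ) * (1 + ‖p.2‖) ^ (-3 : ℝ)) →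
  Tendsto (fun t : ℝ => ((t : ℂ) ^ 8)⁻¹ * ∑' a : O × O, P a.1 a.2 * G (toC a.1 / t ^ 3, toC a.2 / t))
    atTop (𝓝 ((kap ^ 2 * N M ^ 2)⁻¹ * (∑ c ∈ Rs M, ∑ x ∈ Rs M, P c x) * ∫ p, G p))

/-- admissible weights at the prime `lam` -/
structure Nu (ν : O → O → O → ℂ) : Prop where
  p1 : ∀ d x, Pe 729 fun c => ν c d x
  p2 : ∀ c x, Pe 729 fun d => ν c d x
  p3 : ∀ c d, Pe 9 fun x => ν c d x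
  bd : ∀ c d x, ‖ν c d x‖ ≤ 2
  hom : ∀ u c d x, (27 : O) ∣ u - 1 → ν (u * c) (u ^ 2 * d) (u * x) = ν c d x

/-- admissible test functions -/
structure Adm (u : ℂ → ℂ × ℂ → ℂ) : Prop where
  supp : ∃ r R : ℝ, 0 < r ∧ ∀ C p, u C p ≠ 0 → r ≤ ‖C‖ ∧ ‖C‖ ≤ R ∧ ‖p.1‖ ≤ R
  cont : ∀ C, Continuous (u C)
  dec : ∃ K : ℝ, ∀ C p, ‖u C p‖ ≤ K * (1 + ‖p.2‖) ^ (-3 : ℝ)
  fcont : Continuous fun q : ℂ × ℂ × ℂ => F2 (u q.1) q.2.1 q.2.2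
  fdec : ∃ K : ℝ, ∀ C ξ η, ‖F2 (u C) ξ η‖ ≤ K * (1 + ‖ξ‖) ^ (-6 : ℝ) * (1 + ‖η‖) ^ (-8 : ℝ)
  zero : ∀ C, F2 (u C) 0 0 = 0

def Lsum (ν : O → O → O → ℂ) (z : ℂ) (u : ℂ → ℂ × ℂ → ℂ) (t : ℝ) : ℂ :=
  ∑' p : O × O, ∑' x : O, if Prim p.1 then ν p.1 p.2 x * Phi p.1 p.2 x *
    u (toC p.1 / t ^ 3) ((toC p.2 + toC p.1 * z) / t ^ 3, toC x / t ^ 2) else 0

def nuh (ν : O → O → O → ℂ) (c d x : O) : ℂ :=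
  ∑ ρ ∈ Rs 729, ∑ ξ ∈ Rs 9, ν c (c * ρ) (c * ξ) * eQ (ρ * d) 729 * eQ (ξ * x) 9

def Sd (ν : O → O → O → ℂ) (u : ℂ → ℂ × ℂ → ℂ) (t : ℝ) (d : O) : ℂ :=
  ((t : ℂ) ^ 8)⁻¹ * ∑' a : O × O, if Prim a.1 then nuh ν a.1 d a.2 * Phi a.1 (27 * d) a.2 *
    F2 (u (toC a.1 / t ^ 3)) (t ^ 3 * toC d / (729 * toC a.1)) (t ^ 2 * toC a.2 / (9 * toC a.1)) *
      (t ^ 6 / N a.1) else 0

def Av (ν : O → O → O → ℂ) (d : O) : ℂ :=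
  ((N (729 * d) : ℂ) ^ 2)⁻¹ * ∑ c ∈ Rs (729 * d), ∑ x ∈ Rs (729 * d),
    if Prim c then nuh ν c d x * Per (27 * d) c x else 0

def Ker (u : ℂ → ℂ × ℂ → ℂ) (d : ℂ) : ℂ :=
  ∫ p : ℂ × ℂ, F2 (u p.1) (d / (729 * p.1)) (p.2 / (9 * p.1)) * psi (p.2 ^ 3 / (27 * p.1 * d)) /
    (‖p.1‖ : ℂ) ^ 2

def Theta (ν : O → O → O → ℂ) (z : ℂ) (k : ℂ → ℂ) : ℂ :=
  ∑' d : O, if d = 0 then 0 else psi (z * toC d / 729) * Av ν d * k (toC d)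

def LIM1Stmt : Prop := ∀ ν z u (t : ℝ), Nu ν → Adm u → 1 ≤ t →
  ((t : ℂ) ^ 12)⁻¹ * Lsum ν z u t =
    (kap ^ 2 * 3 ^ 16)⁻¹ * ∑' d : O, psi (z * toC d / 729) * Sd ν u t d
def LIM2Stmt : Prop := ∀ ν u d, Nu ν → Adm u → d ≠ 0 →
  Tendsto (fun t => Sd ν u t d) atTop (𝓝 ((kap ^ 2)⁻¹ * Av ν d * Ker u (toC d)))
def LIM3Stmt : Prop := ∀ ν u, Nu ν → Adm u → Tendsto (fun t => Sd ν u t 0) atTop (𝓝 0)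
def LIM4Stmt : Prop := ∀ ν u, Nu ν → Adm u → ∃ K : ℝ, ∀ t : ℝ, 1 ≤ t → ∀ d, d ≠ 0 →
  ‖Sd ν u t d‖ ≤ K * (1 + ‖toC d‖) ^ (-4 : ℝ)
def LIMStmt : Prop := ∀ ν z u, Nu ν → Adm u →
  Tendsto (fun t : ℝ => ((t : ℂ) ^ 12)⁻¹ * Lsum ν z u t) atTop
    (𝓝 ((kap ^ 4 * 3 ^ 16)⁻¹ * Theta ν z (Ker u)))

def phi0 (r ρ : O) : ℂ := eQ (-(ρ * r)) (lam ^ 6) - if lam ∣ ρ then eQ (-(ρ * r)) (lam ^ 7) else 0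
def nu0 (r c d _x : O) : ℂ := if (9 : O) ∣ c - 1 then phi0 r ((2 - c) * d) else 0

def AV0Stmt : Prop := ∀ r, Prim r → Nu (nu0 r) ∧ (∀ c d x, nu0 r c d x ≠ 0 → Prim c ∧ ¬ lam ^ 7 ∣ d) ∧
  ∃ θ : ℂ, ‖θ‖ = 1 ∧
  (∀ D, (27 : O) ∣ D - r → Av (nu0 r) (lam ^ 6 * D) = 3 ^ 8 * (bb D / N D)) ∧
  (∀ D, (27 : O) ∣ D - r → Av (nu0 r) (lam ^ 5 * D) = -(3 ^ 7 * θ) * (bb D / N D)) ∧
  ∀ d, d ≠ 0 → (∀ D, (27 : O) ∣ D - r → d ≠ lam ^ 6 * D ∧ d ≠ lam ^ 5 * D) → Av (nu0 r) d = 0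

def AV1Stmt : Prop := ∀ ν, Nu ν → ∃ A : O → ℕ → O → ℂ, (∀ e v D, ‖A e v D‖ ≤ 2 * 3 ^ 16) ∧
  (∀ e v, Pe 27 (A e v)) ∧
  ∀ e (v : ℕ) D, IsUnit e → Prim D → Av ν (e * lam ^ v * D) = A e v D * (bb D / N D)

def SYMStmt : Prop := ∀ α β δ e h C1 D1 : O, IsUnit e → Prim h → (9 : O) ∣ α → (9 : O) ∣ δ →
  α * δ - e * h * β = 1 → Prim C1 → Prim (δ * C1 - e * h * D1) → IsCoprime C1 D1 →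
  cub (α * D1 - β * C1) (δ * C1 - e * h * D1) * cub e (δ * C1 - e * h * D1) =
    cub D1 C1 * cub e C1 * cub α h

/-- pointwise invariance property of the pair `nu0 r`, `ν` -/
def InvP (r : O) (v : ℕ) (e h : O) (ν : O → O → O → ℂ) : Prop :=
  Nu ν ∧ (∀ c d x, ¬ lam ^ v ∣ d → ν c d x = 0) ∧
  ∀ α β δ c1 d1 x : O, (729 : O) ∣ α → (729 : O) ∣ δ → α * δ - e * h * β = 1 →
    (if Prim (δ * c1 - e * h * d1) ∧ Prim (e * (α * d1 - β * c1)) then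
      nu0 r (δ * c1 - e * h * d1) (lam ^ v * (α * d1 - β * c1)) x *
        Phi (δ * c1 - e * h * d1) (lam ^ v * (α * d1 - β * c1)) x else 0) =
    if Prim c1 then cub α h * (ν c1 (lam ^ v * d1) x * Phi c1 (lam ^ v * d1) x) *
      eQ (x ^ 3 * (e * h)) (lam ^ v * (δ * c1 - e * h * d1) * c1) else 0

def INV1Stmt : Prop := ∀ r (v : ℕ) e h, Prim r → v < 7 → IsUnit e → Prim h → ∃ ν, InvP r v e h ν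

/-- the scale `e h / lam^v` -/
def muC (v : ℕ) (e h : O) : ℂ := toC (e * h) / toC lam ^ v
/-- transformed test function -/
def utr (m : ℂ) (u : ℂ → ℂ × ℂ → ℂ) (C : ℂ) (p : ℂ × ℂ) : ℂ :=
  u (-(m * p.1)) (C / m, p.2) * psi (-(p.2 ^ 3 / (p.1 * C)))

def INV2Stmt : Prop := ∀ (r h a a2 : O) (ν : ℕ → O → O → O → O → ℂ) (u : ℂ → ℂ × ℂ → ℂ) (t : ℝ),
  Prim r → Prim h → (729 : O) ∣ a → h ∣ lam ^ 18 * a * a2 - 1 →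
  (∀ v < 7, ∀ e ∈ U6, InvP r v e h (ν v e)) → Adm u → 0 < t →
  Lsum (nu0 r) (toC (lam ^ 6 * a) / toC h) u t = ∑ v ∈ Finset.range 7, ∑ e ∈ U6,
    cub (e * lam ^ (6 - v) * a) h *
      Lsum (ν v e) (-(toC (729 * lam ^ (2 * v) * e ^ 4 * a2) / toC h)) (utr (muC v e h) u) t

/-- radial Schwartz function with transform `exp (-|η|^6)` -/
def OmP (ω : SchwartzMap ℂ ℂ) : Prop :=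
  (∀ η, F1 ω η = cexp (-(‖η‖ ^ 6 : ℝ))) ∧ ∀ ζ x : ℂ, ‖ζ‖ = 1 → ω (ζ * x) = ω x
def OMStmt : Prop := ∃ ω, OmP ω

/-- smooth, compactly supported away from `0`, angular mode `j` -/
structure Bump (j : ℤ) (β : ℂ → ℂ) : Prop where
  smooth : ContDiff ℝ (⊤ : ℕ∞) β
  supp : ∃ r R : ℝ, 0 < r ∧ ∀ z, β z ≠ 0 → r ≤ ‖z‖ ∧ ‖z‖ ≤ R
  mode : ∀ ζ z : ℂ, ‖ζ‖ = 1 → β (ζ * z) = ζ ^ j * β z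

def UU (ω : SchwartzMap ℂ ℂ) (β1 β2 : ℂ → ℂ) (κ : ℂ) (X : ℝ) (C : ℂ) (p : ℂ × ℂ) : ℂ :=
  β1 C * β2 p.1 * (((X : ℂ) ^ 2)⁻¹ * ω (p.2 / X)) * psi (κ * p.2 ^ 3 / (p.1 * C))

/-- partial Fourier transforms of a Schwartz function with parameters -/
def SOFT1Stmt : Prop := ∀ H : SchwartzMap (ℝ × ℂ × ℂ × ℂ) ℂ,
  (Continuous fun q : ℝ × ℂ × ℂ × ℂ => F2 (fun p => H (q.1, q.2.1, p)) q.2.2.1 q.2.2.2) ∧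
  ∃ K : ℝ, ∀ s C ξ η,
    ‖F2 (fun p => H (s, C, p)) ξ η‖ ≤ K * (1 + ‖ξ‖) ^ (-6 : ℝ) * (1 + ‖η‖) ^ (-8 : ℝ) ∧
    ‖F2 (fun p => H (s, C, p)) ξ η - F2 (fun p => H (0, C, p)) ξ η‖ ≤
      K * |s| * (1 + ‖ξ‖) ^ (-6 : ℝ) * (1 + ‖η‖) ^ (-8 : ℝ)

def SOFT2Stmt : Prop := ∀ (ω : SchwartzMap ℂ ℂ) (j j' : ℤ) β1 β2 (κ : ℂ), Bump j β1 → Bump j' β2 →
  ∃ H : SchwartzMap (ℝ × ℂ × ℂ × ℂ) ℂ, ∀ s : ℝ, 0 ≤ s → s ≤ 1 → ∀ C E x,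
    H (s, C, E, x) = β1 C * β2 E * ω x * psi (s * (κ * x ^ 3 / (E * C)))

def SOFTStmt : Prop := ∀ ω (j j' : ℤ) β1 β2 (κ : ℂ), OmP ω → Bump j β1 → Bump j' β2 → j' ≠ 0 →
  (∀ X : ℝ, 0 < X → X ≤ 1 → Adm (UU ω β1 β2 κ X)) ∧
  (∃ K : ℝ, ∀ ξ, ‖F1 β2 ξ‖ ≤ K * (1 + ‖ξ‖) ^ (-6 : ℝ)) ∧
  ∃ K : ℝ, ∀ X : ℝ, 0 < X → X ≤ 1 → ∀ C ξ η,
    ‖F2 (UU ω β1 β2 κ X C) ξ η - β1 C * F1 β2 ξ * cexp (-((X * ‖η‖) ^ 6 : ℝ))‖ ≤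
      K * X ^ 3 * (1 + ‖ξ‖) ^ (-6 : ℝ) * (1 + X * ‖η‖) ^ (-8 : ℝ)

def Ai (X : ℝ) (a : ℂ) : ℂ := ∫ Y : ℂ, cexp (-((X * ‖Y‖) ^ 6 : ℝ)) * psi (a * Y ^ 3)
def AI1Stmt : Prop := ∀ (X : ℝ) (a : ℂ), 0 < X →
  Ai X a = 3⁻¹ * ∫ u : ℂ, cexp (-(X ^ 6 * ‖u‖ ^ 2 : ℝ)) * ((‖u‖ ^ (-4 / 3 : ℝ) : ℝ) : ℂ) * psi (a * u)
def AIStmt : Prop := ∃ A0 A1 : ℝ, 0 < A0 ∧ ∀ a : ℂ, a ≠ 0 →
  (∀ X : ℝ, 0 < X → ‖Ai X a‖ ≤ A1 * ‖a‖ ^ (-2 / 3 : ℝ)) ∧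
  Tendsto (fun X => Ai X a) (𝓝[>] 0) (𝓝 ((A0 * ‖a‖ ^ (-2 / 3 : ℝ) : ℝ) : ℂ))

def K0 (β1 β2 : ℂ → ℂ) (d : ℂ) : ℂ :=
  ((‖d‖ ^ (2 / 3 : ℝ) : ℝ) : ℂ) * ∫ C : ℂ, β1 C * ((‖C‖ ^ (-4 / 3 : ℝ) : ℝ) : ℂ) * F1 β2 (d / (729 * C))

def XLStmt : Prop := ∃ A : ℂ, A ≠ 0 ∧ ∀ ω (j j' : ℤ) β1 β2 (κ : ℂ), OmP ω → Bump j β1 → Bump j' β2 →
  j' ≠ 0 → (∃ K : ℝ, ∀ X : ℝ, 0 < X → X ≤ 1 → ∀ d : ℂ, d ≠ 0 →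
    ‖Ker (UU ω β1 β2 κ X) d‖ ≤ K * (1 + ‖d‖) ^ (-5 : ℝ)) ∧
  ∀ d : ℂ, d ≠ 0 → Tendsto (fun X => Ker (UU ω β1 β2 κ X) d) (𝓝[>] 0) (𝓝 (A * K0 β1 β2 d))

/-- the theta identity for a pair of test functions -/
def ThId (β1 β2 : ℂ → ℂ) : Prop := ∀ (r h a a2 : O) (ν : ℕ → O → O → O → O → ℂ),
  Prim r → Prim h → (729 : O) ∣ a → h ∣ lam ^ 18 * a * a2 - 1 →
  (∀ v < 7, ∀ e ∈ U6, InvP r v e h (ν v e)) →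
  Theta (nu0 r) (toC (lam ^ 6 * a) / toC h) (K0 β1 β2) = ∑ v ∈ Finset.range 7, ∑ e ∈ U6,
    cub (e * lam ^ (6 - v) * a) h *
      Theta (ν v e) (-(toC (729 * lam ^ (2 * v) * e ^ 4 * a2) / toC h))
        (K0 (fun C => β2 (C / muC v e h)) (fun E => β1 (-(muC v e h * E))))

def TH0Stmt : Prop := ∀ (j : ℤ) β1 β2, j ≠ 0 → Bump (-j) β1 → Bump j β2 → ThId β1 β2

/-- `z exp(-|z|²)` or its conjugate -/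
def Gj (j : ℤ) (z : ℂ) : ℂ := ang j z * (‖z‖ : ℂ) * cexp (-(‖z‖ ^ 2 : ℝ))

def CUTStmt : Prop := ∀ j : ℤ, j = 1 ∨ j = -1 → ∃ (β : ℕ → ℂ → ℂ) (K : ℝ), (∀ n, Bump j (β n)) ∧
  (∀ n z, ‖β n z‖ ≤ ‖Gj j z‖) ∧ (∀ z, Tendsto (fun n => β n z) atTop (𝓝 (Gj j z))) ∧
  ∀ n ξ, ‖ξ‖ ^ 2 * ‖F1 (β n) ξ‖ ≤ K

def TH1Stmt : Prop := ∀ (j : ℤ) (y : ℝ), j = 1 ∨ j = -1 → 0 < y →
  ThId (Gj (-j)) (fun E => Gj j (E / y))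

/-- Bessel-type kernel -/
def kk (x : ℝ) : ℝ :=
  x * Real.pi * ∫ ρ in Set.Ioi (0 : ℝ), ρ ^ (-2 / 3 : ℝ) * Real.exp (-ρ - sg * x ^ 2 / ρ)

def KGStmt : Prop := ∃ c0 : ℂ, c0 ≠ 0 ∧ ∀ (j : ℤ) (m1 m2 d : ℂ), j = 1 ∨ j = -1 → m1 ≠ 0 → m2 ≠ 0 → d ≠ 0 →
  K0 (fun C => Gj (-j) (C / m1)) (fun E => Gj j (E / m2)) d =
    j * c0 * ang (-j) (d * m2 / m1) *
      ((‖d‖ ^ (2 / 3 : ℝ) * ‖m1‖ ^ (2 / 3 : ℝ) * ‖m2‖ ^ 2 * kk (‖d‖ * ‖m2‖ / (729 * ‖m1‖)) : ℝ) : ℂ)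

def Th {ι : Type} (A : ι → ℂ) (x : ι → ℝ) (y : ℝ) : ℂ :=
  ∑' i, A i * ((x i ^ (-1 / 3 : ℝ) * kk (y * x i) : ℝ) : ℂ)
def Dir {ι : Type} (A : ι → ℂ) (x : ι → ℝ) (s : ℂ) : ℂ := ∑' i, A i * (x i : ℂ) ^ (-2 * s)
/-- gamma factor -/
def gg (s : ℂ) : ℂ := (sg : ℂ) ^ (2 * s - 1) * (Gamma (4 / 3 - s) * Gamma (5 / 3 - s)) *
  ((Gamma (s + 1 / 3))⁻¹ * (Gamma (s + 2 / 3))⁻¹)
/-- exponential growth in vertical strips -/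
def Gr (R : ℂ → ℂ) : Prop :=
  ∀ a b : ℝ, ∃ C : ℝ, ∀ s : ℂ, a ≤ s.re → s.re ≤ b → ‖R s‖ ≤ C * Real.exp (7 * |s.im|)

structure GAM : Prop where
  inv : ∀ a b : ℝ, ∃ C : ℝ, ∀ s : ℂ, a ≤ s.re → s.re ≤ b → ‖(Gamma s)⁻¹‖ ≤ C * Real.exp (7 / 2 * |s.im|)
  diff : DifferentiableOn ℂ gg {s | s.re < 4 / 3}
  strip : ∃ C : ℝ, ∀ s : ℂ, -1 ≤ s.re → s.re ≤ 1 → ‖gg s‖ ≤ C * Real.exp (7 * |s.im|)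
  half : ∀ t : ℝ, ‖gg (1 / 2 + t * I)‖ ≤ 1
  l0 : ∃ C : ℝ, ∀ t : ℝ, ‖gg (t * I)‖ ≤ C * (1 + |t|) ^ 2
  lm : ∃ C : ℝ, ∀ t : ℝ, ‖gg (-1 / 2 + t * I)‖ ≤ C * (1 + |t|) ^ 4
  dec : ∀ (σ : ℝ) (k : ℕ), 0 < σ → ∃ C : ℝ, ∀ t : ℝ, ‖Gamma (σ + t * I)‖ * (1 + |t|) ^ k ≤ C

/-- the kernel `kk` -/
structure KK : Prop where
  cont : ContinuousOn kk (Set.Ioi 0)
  nonneg : ∀ x, 0 < x → 0 ≤ kk x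
  mel : ∀ s : ℂ, 0 < s.re → IntegrableOn (fun x : ℝ => (kk x : ℂ) * (x : ℂ) ^ (2 * s - 4 / 3)) (Set.Ioi 0) ∧
    ∫ x in Set.Ioi (0 : ℝ), (kk x : ℂ) * (x : ℂ) ^ (2 * s - 4 / 3) =
      Real.pi / 2 * (sg : ℂ) ^ (-s - 1 / 3) * (Gamma (s + 1 / 3) * Gamma (s + 2 / 3))
  dec : ∀ A : ℝ, 0 ≤ A → ∃ C : ℝ, ∀ x, 0 < x → kk x ≤ C * x ^ (-A)

def MELStmt : Prop := ∀ (ι ι' : Type) [Countable ι] [Countable ι'] (A : ι → ℂ) (x : ι → ℝ) (A' : ι' → ℂ) (x' : ι' → ℝ),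
  (∀ i, 0 < x i) → (∀ i, 0 < x' i) →
  (∀ σ : ℝ, 1 < σ → Summable fun i => ‖A i‖ * x i ^ (-2 * σ)) →
  (∀ σ : ℝ, 1 < σ → Summable fun i => ‖A' i‖ * x' i ^ (-2 * σ)) →
  (∀ y : ℝ, 0 < y → Th A x y = ((y ^ (-4 / 3 : ℝ) : ℝ) : ℂ) * Th A' x' y⁻¹) →
  ∃ R : ℂ → ℂ, Differentiable ℂ R ∧ Gr R ∧ (∀ s : ℂ, 1 < s.re → R s = Dir A x s) ∧
    ∀ s : ℂ, s.re < 0 → R s = gg s * Dir A' x' (1 - s)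

/-- theta Dirichlet series at the cusp `a / h`, class `r` mod 27, angular mode `J` -/
def Ds (J : ℤ) (r h a : O) (s : ℂ) : ℂ :=
  ∑' k : O, if (27 : O) ∣ k - r then bb k * ang J (toC k) * eQ (a * k) h * (N k : ℂ) ^ (-(1 / 2 + s)) else 0

def FEStmt : Prop := ∃ K : ℝ, ∀ (J : ℤ) (r h : O), J = 1 ∨ J = -1 → Prim r → Prim h →
  ∃ (θ : ℂ) (B : ℕ → ℕ → O → O → ℂ), ‖θ‖ = 1 ∧ (∀ n v e r', ‖B n v e r'‖ ≤ K) ∧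
  ∀ a a1 a2 : O, h ∣ lam * a1 - a → h ∣ lam ^ 18 * a * a2 - 1 →
  ∃ R : ℂ → ℂ, Differentiable ℂ R ∧ Gr R ∧
    (∀ s : ℂ, 1 < s.re → R s = Ds J r h a s - θ * 3 ^ (s - 3 / 2) * Ds J r h a1 s) ∧
    ∀ s : ℂ, s.re < 0 → R s = gg s * (N h : ℂ) ^ (1 - 2 * s) * 3 ^ (-18 * s) * cub a h *
      ∑' n : ℕ, ∑ v ∈ Finset.range 7, ∑ e ∈ U6, ∑ r' ∈ Rs 27,
        B n v e r' * 3 ^ (n * (s - 1 / 2)) * 3 ^ (v * (2 * s - 1)) *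
          Ds (-J) r' h (e * lam ^ (2 * v + n) * a2) (1 - s)

/-- contour shift -/
def SHStmt : Prop := ∀ (f : ℂ → ℂ) (a b C c : ℝ), a ≤ b → 0 < c →
  DifferentiableOn ℂ f {s | a ≤ s.re ∧ s.re ≤ b} →
  (∀ s : ℂ, a ≤ s.re → s.re ≤ b → ‖f s‖ ≤ C * Real.exp (-(c * |s.im|))) →
  ∫ t : ℝ, f (a + t * I) = ∫ t : ℝ, f (b + t * I)

/-- log-normal weight -/
def VV (Y x : ℝ) : ℝ := Real.exp (-(Real.log (x / Y)) ^ 2)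

structure LN : Prop where
  mel : ∀ (Y x : ℝ) (w : ℂ) (σ : ℝ), 0 < Y → 0 < x → (x : ℂ) ^ (-w) * VV Y x =
    (2 * Real.sqrt Real.pi : ℝ)⁻¹ * ∫ t : ℝ, cexp ((σ + t * I - w) ^ 2 / 4) * (Y : ℂ) ^ (σ + t * I - w) *
      (x : ℂ) ^ (-(σ + t * I))
  part : ∀ x : ℝ, 0 < x → ∫ Z in Set.Ioi (0 : ℝ), VV Z x / Z = Real.sqrt Real.pi
  shift : ∀ Y x δ : ℝ, 0 < Y → 0 < x →
    x ^ (-δ) * VV Y x = Y ^ (-δ) * Real.exp (δ ^ 2 / 4) * VV (Y * Real.exp (-δ / 2)) x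
  le : ∀ A : ℝ, ∀ Y x : ℝ, 0 < Y → 0 < x → VV Y x ≤ Real.exp (A ^ 2 / 4) * (Y / x) ^ A
  scale : ∀ Y x c : ℝ, 0 < Y → 0 < x → 0 < c → VV Y (c * x) = VV (Y / c) x
  fwd : ∀ (x : ℝ) (s : ℂ), 0 < x → ∫ Y in Set.Ioi (0 : ℝ), (VV Y x : ℂ) * (Y : ℂ) ^ (-s - 1) =
    (Real.sqrt Real.pi : ℂ) * cexp (s ^ 2 / 4) * (x : ℂ) ^ (-s)
  /-- lattice sums of the weight -/
  sum : ∀ σ : ℝ, ∃ C : ℝ, ∀ Y : ℝ, 0 < Y →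
    (Summable fun k : O => if k = 0 then 0 else N k ^ σ * VV Y (N k)) ∧
    ∑' k : O, (if k = 0 then 0 else N k ^ σ * VV Y (N k)) ≤ C * (if -1 < σ then Y ^ (σ + 1) else 1 + Y) * min 1 Y

/-- normalised smoothed theta sum against a function `φ` -/
def TT (J : ℤ) (r : O) (φ : O → ℂ) (Y : ℝ) (w : ℂ) : ℂ :=
  ∑' k : O, if (27 : O) ∣ k - r then
    bb k * ang J (toC k) * φ k * (N k : ℂ) ^ (-(1 / 2 + w)) * VV Y (N k) else 0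
/-- finite Fourier series -/
def fs (h : O) (Ψ : O → ℂ) (k : O) : ℂ := ∑ a ∈ Rs h, Ψ a * eQ (a * k) h
/-- dual coefficients -/
def dl (h : O) (Ψ : O → ℂ) (m b : O) : ℂ :=
  ∑ a ∈ Rs h, if h ∣ lam ^ 18 * a * b - m then Ψ a * cub a h else 0
/-- coefficients periodic mod `h`, supported on units -/
def Cf (h : O) (Ψ : O → ℂ) : Prop := Prim h ∧ Pe h Ψ ∧ ∀ a, ¬ IsCoprime a h → Ψ a = 0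
def DP (J : ℤ) (r h : O) (Ψ : O → ℂ) (s : ℂ) : ℂ := ∑ a ∈ Rs h, Ψ a * Ds J r h a s
def WW (h : O) (Y : ℝ) (w : ℂ) (i n v : ℕ) (s : ℂ) : ℂ :=
  cexp ((s - w) ^ 2 / 4) * (Y : ℂ) ^ (s - w) * gg s * (N h : ℂ) ^ (1 - 2 * s) * 3 ^ (-18 * s) *
    3 ^ (i * (s - 3 / 2)) * 3 ^ (n * (s - 1 / 2)) * 3 ^ (v * (2 * s - 1))

/-- Voronoi inequality on the line `Re s = -1/2` -/
def VIStmt : Prop := ∃ K : ℝ, 0 ≤ K ∧ ∀ (J : ℤ) (r h : O) (Ψ : O → ℂ) (Y t0 : ℝ), J = 1 ∨ J = -1 → Cf h Ψ → 0 < Y →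
  ‖TT J r (fs h Ψ) Y (1 / 2 + t0 * I)‖ₑ ≤ ENNReal.ofReal K *
    ∑' i : ℕ, ∑' n : ℕ, ∑ v ∈ Finset.range 7, ∑ e ∈ U6, ∑ r' ∈ Rs 27,
      ‖∫ t : ℝ, WW h Y (1 / 2 + t0 * I) i n v (-1 / 2 + t * I) *
        DP (-J) r' h (dl h Ψ (e * lam ^ (2 * v + n + i))) (3 / 2 - t * I)‖ₑ

/-- crude bound -/
def CRUStmt : Prop := ∃ C : ℝ, ∀ (J : ℤ) (r h : O) (Ψ : O → ℂ) (Y t0 : ℝ), J = 1 ∨ J = -1 → Cf h Ψ → 0 < Y →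
  ‖TT J r (fs h Ψ) Y (1 / 2 + t0 * I)‖ ≤ C * (∑ a ∈ Rs h, ‖Ψ a‖) * (N h ^ 2 / Y) * (1 + |t0|) ^ 4

/-- one term of the Voronoi inequality: partition of unity and second shift -/
def FAM1Stmt : Prop := ∃ C : ℝ, 0 ≤ C ∧ ∀ (J : ℤ) (r h : O) (Ψ : O → ℂ) (Y U t0 : ℝ) (i n v : ℕ),
  h ≠ 0 → 0 < Y → 0 < U → N h ^ 2 ≤ U * Y → v < 7 →
  ‖∫ t : ℝ, WW h Y (1 / 2 + t0 * I) i n v (-1 / 2 + t * I) * DP J r h Ψ (3 / 2 - t * I)‖ₑ ≤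
    ENNReal.ofReal (C * (3 ^ i)⁻¹) * ∫⁻ Z in Set.Ioi (0 : ℝ), ∫⁻ t : ℝ,
      ENNReal.ofReal (min 1 (Real.sqrt (U / (3 ^ n * Z))) / Z * Real.exp (-(t - t0) ^ 2 / 4) * (1 + |t|) ^ 2) *
        ‖TT J r (fs h Ψ) Z (1 / 2 - t * I)‖ₑ

/-- mean square transfer for families -/
def FAMStmt : Prop := ∀ (p : ℕ) (θ ε : ℝ), 0 ≤ θ → θ < 1 / 2 → 0 < ε → ∃ C : ℝ, 0 ≤ C ∧
  ∀ (ι : Type) (S : Finset ι) (J : ℤ) (r : O) (h : ι → O) (Ψ : ι → O → ℂ) (Y U P R t0 : ℝ),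
  J = 1 ∨ J = -1 → (∀ i ∈ S, Cf (h i) (Ψ i) ∧ N (h i) ^ 2 ≤ U * Y) → 0 < Y → 0 < U → 0 ≤ P → 0 ≤ R →
  (∀ (n : ℕ) (e r' : O) (Z t : ℝ), IsUnit e → 0 < Z →
    ∑ i ∈ S, ‖TT (-J) r' (fs (h i) (dl (h i) (Ψ i) (e * lam ^ n))) Z (1 / 2 + t * I)‖ ^ 2 ≤
      (min 1 Z * (P + R * Z ^ θ) * (1 + |t|) ^ p) ^ 2) →
  ∑ i ∈ S, ‖TT J r (fs (h i) (Ψ i)) Y (1 / 2 + t0 * I)‖ ^ 2 ≤
    (C * (1 + U) ^ ε * (P + R * (1 + U) ^ θ) * (1 + |t0|) ^ (p + 2)) ^ 2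

end Vale.Agent.P026
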