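import Vale.Agent.P026.Stm2

/-! P026: corrected family transfer (lines `1/2` and `-1/2`). -/

noncomputable section
open Complex MeasureTheory Filter Topology
open scoped Classical ComplexConjugate

namespace Vale.Agent.P026

def FAM1bStmt : Prop := ∃ C : ℝ, 0 ≤ C ∧ ∀ (J : ℤ) (r h : O) (Ψ : O → ℂ) (Y U t0 : ℝ) (i n v : ℕ),
  h ≠ 0 → 0 < Y → 0 < U → N h ^ 2 ≤ U * Y → v < 7 →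
  ‖∫ t : ℝ, WW h Y (1 / 2 + t0 * I) i n v (-1 / 2 + t * I) * DP J r h Ψ (3 / 2 - t * I)‖ₑ ≤
    ENNReal.ofReal (C * (3 ^ i)⁻¹) * ∫⁻ Z in Set.Ioi (0 : ℝ), ∫⁻ t : ℝ,
      ENNReal.ofReal (min 1 (U / (3 ^ n * Z)) / Z * Real.exp (-(t - t0) ^ 2 / 4) * (1 + |t|) ^ 4) *
        ‖TT J r (fs h Ψ) Z (1 / 2 - t * I)‖ₑ

def FAMbStmt : Prop := ∀ (p : ℕ) (θ ε : ℝ), 0 ≤ θ → 0 < ε → θ + ε < 1 → ∃ C : ℝ, 0 ≤ C ∧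
  ∀ (ι : Type) (S : Finset ι) (J : ℤ) (r : O) (h : ι → O) (Ψ : ι → O → ℂ) (Y U P R t0 : ℝ),
  J = 1 ∨ J = -1 → (∀ i ∈ S, Cf (h i) (Ψ i) ∧ N (h i) ^ 2 ≤ U * Y) → 0 < Y → 0 < U → 0 ≤ P → 0 ≤ R →
  (∀ (n : ℕ) (e r' : O) (Z t : ℝ), IsUnit e → 0 < Z →
    ∑ i ∈ S, ‖TT (-J) r' (fs (h i) (dl (h i) (Ψ i) (e * lam ^ n))) Z (1 / 2 + t * I)‖ ^ 2 ≤
      (min 1 Z * (1 + Z) ^ ε * (P + R * Z ^ θ) * (1 + |t|) ^ p) ^ 2) →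
  ∑ i ∈ S, ‖TT J r (fs (h i) (Ψ i)) Y (1 / 2 + t0 * I)‖ ^ 2 ≤
    (C * (1 + U) ^ (2 * ε) * (P + R * (1 + U) ^ θ) * (1 + |t0|) ^ (p + 4)) ^ 2

end Vale.Agent.P026
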