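import Vale.Agent.P026.Stm2b

/-! P026 wave 3: families, positivity, amplification. -/

noncomputable section
open Complex MeasureTheory Filter Topology
open scoped Classical ComplexConjugate

namespace Vale.Agent.P026

/-- odd primary -/
def OP (k : O) : Prop := Prim k ∧ IsCoprime k 2
/-- primary prime factors -/
def pf (s : O) : Finset O :=
  if h : {p : O | Prime p ∧ Prim p ∧ p ∣ s}.Finite then h.toFinset else ∅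
/-- valuation -/
def vl (p s : O) : ℕ := multiplicity p s
def rad (s : O) : O := ∏ p ∈ pf s, p
def rd (s : O) : ℝ := ∏ p ∈ pf s, N p
def fl (s : O) : O := ∏ p ∈ pf s, p ^ (vl p s - 1)
/-- multiplicative weight from a table of exponents indexed by the valuation mod 6 -/
def mw (a : ℕ → ℝ) (s : O) : ℝ := ∏ p ∈ pf s, N p ^ a (vl p s % 6)
/-- table -/
def tb (a0 a2 a : ℝ) (i : ℕ) : ℝ := if i = 0 then a0 else if i = 2 then a2 else a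

structure B8 : Prop where
  mem : ∀ s p, s ≠ 0 → (p ∈ pf s ↔ Prime p ∧ Prim p ∧ p ∣ s)
  prod : ∀ s, Prim s → s = ∏ p ∈ pf s, p ^ vl p s
  prod' : ∀ s (P : Finset O), Prim s → pf s ⊆ P → (∀ p ∈ P, Prime p ∧ Prim p) → s = ∏ p ∈ P, p ^ vl p s
  pf_mul : ∀ a b, a ≠ 0 → b ≠ 0 → pf (a * b) = pf a ∪ pf b
  pf_disj : ∀ a b, a ≠ 0 → b ≠ 0 → IsCoprime a b → Disjoint (pf a) (pf b)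
  pf_one : pf 1 = ∅
  pf_pp : ∀ p (k : ℕ), Prime p → Prim p → k ≠ 0 → pf (p ^ k) = {p}
  vl_mul : ∀ p a b, Prime p → a ≠ 0 → b ≠ 0 → vl p (a * b) = vl p a + vl p b
  vl_pow : ∀ p a (k : ℕ), Prime p → a ≠ 0 → vl p (a ^ k) = k * vl p a
  vl_self : ∀ p, Prime p → vl p p = 1
  vl_zero : ∀ p a, Prime p → a ≠ 0 → (vl p a = 0 ↔ ¬ p ∣ a)
  vl_dvd : ∀ p a (k : ℕ), Prime p → a ≠ 0 → (p ^ k ∣ a ↔ k ≤ vl p a)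
  vl_prod : ∀ (P : Finset O) (f : O → ℕ) q, (∀ p ∈ P, Prime p ∧ Prim p) → Prime q → Prim q →
    vl q (∏ p ∈ P, p ^ f p) = if q ∈ P then f q else 0
  sqf : ∀ n, Prim n → (Squarefree n ↔ ∀ p ∈ pf n, vl p n = 1)
  fl_rad : ∀ s, Prim s → fl s * rad s = s
  rad_prim : ∀ s, Prim (rad s)
  fl_prim : ∀ s, Prim (fl s)
  rad_sqf : ∀ s, Squarefree (rad s)
  N_rad : ∀ s, N (rad s) = rd s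
  rd_ge : ∀ s, 1 ≤ rd s
  rd_le : ∀ s, s ≠ 0 → rd s ≤ N s
  rd_mul : ∀ a b, a ≠ 0 → b ≠ 0 → rd (a * b) ≤ rd a * rd b
  rd_pow : ∀ a (k : ℕ), a ≠ 0 → rd (a ^ k) ≤ rd a
  N7 : ∀ p, Prime p → OP p → 7 ≤ N p
  ome : ∀ c ε : ℝ, 0 ≤ c → 0 < ε → ∃ C, ∀ s, c ^ (pf s).card ≤ C * rd s ^ ε
  op_mul : ∀ a b, OP a → OP b → OP (a * b)
  op_dvd : ∀ a b, OP b → Prim a → a ∣ b → OP a
  /-- decomposition of a nonzero element -/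
  dec2 : ∀ h, h ≠ 0 → ∃ (e : O) (a b : ℕ) (k : O), e ∈ U6 ∧ OP k ∧ h = e * lam ^ a * 2 ^ b * k
  mu_mul : ∀ a b, IsCoprime a b → mu (a * b) = mu a * mu b
  mu_le : ∀ a, ‖mu a‖ ≤ 1

/-- the sextic symbol -/
structure SX : Prop where
  mul_l : ∀ a b c, OP c → sx (a * b) c = sx a c * sx b c
  pow_l : ∀ a c (k : ℕ), OP c → sx (a ^ k) c = sx a c ^ k
  mul_r : ∀ a c c', c ≠ 0 → c' ≠ 0 → sx a (c * c') = sx a c * sx a c'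
  pow_r : ∀ a c (k : ℕ), c ≠ 0 → sx a (c ^ k) = sx a c ^ k
  one_l : ∀ c, sx 1 c = 1
  one_r : ∀ a, sx a 1 = 1
  pe : ∀ c, Pe c fun a => sx a c
  zero : ∀ a c, c ≠ 0 → ¬ IsCoprime a c → sx a c = 0
  norm : ∀ a c, IsCoprime a c → ‖sx a c‖ = 1
  norm_le : ∀ a c, ‖sx a c‖ ≤ 1
  six : ∀ a c, IsCoprime a c → sx a c ^ 6 = 1
  two : ∀ a c, c ≠ 0 → sx a c ^ 2 = cub a c
  three : ∀ a c, c ≠ 0 → sx a c ^ 3 = quad a c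
  conj_eq : ∀ a c, c ≠ 0 → conj (sx a c) = sx a c ^ 5
  sum_zero : ∀ p (i : ℕ), Prime p → OP p → ¬ 6 ∣ i → ∑ r ∈ Rs p, sx r p ^ i = 0
  /-- sextic reciprocity with a sign depending on classes mod 4 -/
  recip : ∃ ε : O → O → ℂ, (∀ a b, ‖ε a b‖ ≤ 1) ∧
    (∀ a a' b b', (4 : O) ∣ a - a' → (4 : O) ∣ b - b' → ε a b = ε a' b') ∧
    ∀ a b, OP a → OP b → sx a b = ε a b * sx b a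
  gam_one : ∀ a b, IsCoprime a 2 → (4 : O) ∣ a - b → gam (a * b) = 1
  gam_conj : ∀ n, IsCoprime n 2 → conj (gam n) = quad (-1) n * gam n

def tw (κ : ℕ) (h s : O) (φ : O → ℂ) (k : O) : ℂ := sx k h ^ κ * sx k s * φ k
/-- bounded, periodic mod 8 -/
def P8 (φ : O → ℂ) : Prop := Pe 8 φ ∧ ∀ k, ‖φ k‖ ≤ 1
/-- members of a family -/
def Fm (s : O) (h : O) : Prop := OP h ∧ Squarefree h ∧ IsCoprime h s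

/-- family bound for theta sums -/
def FB (κ : ℕ) (J : ℤ) (s : O) (H Z t B : ℝ) : Prop := ∀ (r : O) (φ : O → ℂ) (S : Finset O), P8 φ →
  (∀ h ∈ S, Fm s h ∧ N h ≤ H) → ∑ h ∈ S, ‖TT J r (tw κ h s φ) Z (1 / 2 + t * I)‖ ^ 2 ≤ B

def SQc (J : ℤ) (r s : O) (φ : O → ℂ) (Z t : ℝ) (n : O) : ℂ :=
  if (27 : O) ∣ n - r ∧ OP n ∧ Squarefree n then
    gs n * ang J (toC n) * sx n s * φ n * (N n : ℂ) ^ (-(1 + t * I)) * VV Z (N n) else 0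

/-- family bound for squarefree sums over all nonzero `m` -/
def PB (κ : ℕ) (J : ℤ) (s : O) (H Z t B : ℝ) : Prop := ∀ (r : O) (φ : O → ℂ) (S : Finset O), P8 φ →
  (∀ m ∈ S, m ≠ 0 ∧ N m ≤ H) → ∑ m ∈ S, ‖∑' n, SQc J r s φ Z t n * sx m n ^ κ‖ ^ 2 ≤ B

def REDStmt : Prop := ∀ ε : ℝ, 0 < ε → ∃ C : ℝ, 0 ≤ C ∧ ∀ (κ : ℕ) (J : ℤ) (s : O) (H t P R θ : ℝ), OP s →
  0 ≤ P → 0 ≤ R → 0 ≤ θ → κ ≠ 0 →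
  (∀ Z : ℝ, 0 < Z → PB κ J s H Z t ((min 1 Z * (1 + Z) ^ ε * (P + R * Z ^ θ)) ^ 2)) →
  ∀ Z : ℝ, 0 < Z → FB κ J s H Z t ((C * min 1 Z * (1 + Z) ^ (2 * ε) * (P + R * Z ^ θ)) ^ 2)

def SS0Stmt : Prop := ∀ A : ℕ, 2 ≤ A → ∃ C : ℝ, 0 ≤ C ∧ ∀ (κ : ℕ) (a : O → ℂ) (M : ℝ) (S : Finset O), ¬ 6 ∣ κ → 1 ≤ M →
  (∀ n, a n ≠ 0 → OP n ∧ Squarefree n) → Summable (fun n => ‖a n‖ * N n ^ A) → (∀ m ∈ S, N m ≤ M) →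
  ∑ m ∈ S, ‖∑' n, a n * sx m n ^ κ‖ ^ 2 ≤
    C * (M * ∑' n, ‖a n‖ ^ 2 + M / M ^ A * (∑' n, ‖a n‖ * N n ^ A) ^ 2)

def L3Stmt : Prop := ∀ ε : ℝ, 0 < ε → ∃ C : ℝ, 0 ≤ C ∧ ∀ (J : ℤ) (s : O) (H Z t : ℝ), 1 ≤ H → 0 < Z →
  PB 5 J s H Z t ((min 1 Z * (1 + Z) ^ ε * (C * Real.sqrt H + C * H ^ (1 / 4 : ℝ) * Z ^ (3 / 4 : ℝ))) ^ 2)

/-! ### Voronoi step -/

def du (h : O) (Ψ : O → ℂ) (m n D : O) : ℂ :=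
  ∑ a ∈ Rs h, ∑ b ∈ Rs h, if h ∣ n * a * b - m then Ψ a * cub a h * eQ (b * D) h else 0

def VSaStmt : Prop := (∀ h Ψ m D, fs h (dl h Ψ m) D = du h Ψ m (lam ^ 18) D) ∧
  ∀ q1 q2 Ψ1 Ψ2, Cf q1 Ψ1 → Cf q2 Ψ2 → IsCoprime q1 q2 → ∃ Ψ, Cf (q1 * q2) Ψ ∧
    (∀ k, fs (q1 * q2) Ψ k = fs q1 Ψ1 k * fs q2 Ψ2 k) ∧
    ∀ m n D, du (q1 * q2) Ψ m n D =
      cub q2 q1 * cub q1 q2 * du q1 Ψ1 m (n * q2 ^ 2) D * du q2 Ψ2 m (n * q1 ^ 2) D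

/-- local duals at a prime -/
def VScStmt : Prop := ∀ p, Prime p → OP p →
  (∀ i : ℕ, i % 6 ≠ 0 → i % 6 ≠ 2 → ∃ Ψ, Cf p Ψ ∧ (∀ k, fs p Ψ k = sx k p ^ i) ∧
    ∀ m n, ¬ p ∣ m → ¬ p ∣ n → ∃ z : ℂ, ‖z‖ ≤ 1 ∧ ∀ D, du p Ψ m n D = z * sx D p ^ (8 - i % 6)) ∧
  (∃ Ψ, Cf p Ψ ∧ (∀ k, fs p Ψ k = sx k p ^ 2) ∧ ∀ m n, ¬ p ∣ m → ¬ p ∣ n → ∃ z z' : ℂ,
    ‖z‖ ≤ N p ^ (1 / 2 : ℝ) ∧ ‖z'‖ ≤ N p ^ (1 / 2 : ℝ) ∧ ∀ D, du p Ψ m n D = z + z' * sx D p ^ 6) ∧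
  (∃ Ψ, Cf p Ψ ∧ (∀ k, (1 - (N p : ℂ)⁻¹) + fs p Ψ k = sx k p ^ 6) ∧ ∀ m n, ¬ p ∣ m → ¬ p ∣ n → ∃ z : ℂ,
    ‖z‖ ≤ N p ^ (-1 / 2 : ℝ) ∧ ∀ D, du p Ψ m n D = z * sx D p ^ 2)

def VS0Stmt : Prop := ∀ (κ : ℕ) (h : O), κ = 3 ∨ κ = 5 → OP h → Squarefree h → ∃ Ψ, Cf h Ψ ∧
  (∀ k, fs h Ψ k = sx k h ^ κ) ∧
  ∀ m n, IsCoprime m h → IsCoprime n h → ∃ z : ℂ, ‖z‖ ≤ 1 ∧ ∀ D, du h Ψ m n D = z * sx D h ^ (8 - κ)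

/-- the part at `2` -/
def VSdStmt : Prop := ∀ φ, P8 φ → ∃ Ψ : ℕ → O → ℂ, (∀ b, Cf ((-2) ^ b) (Ψ b)) ∧
  (∀ k, φ k = ∑ b ∈ Finset.range 4, fs ((-2) ^ b) (Ψ b) k) ∧
  ∀ b < 4, (∀ m n, IsCoprime n 2 → P8 fun D => du ((-2) ^ b) (Ψ b) m n D / 64) ∧
    ∀ m n n' D, (8 : O) ∣ n - n' → du ((-2) ^ b) (Ψ b) m n D = du ((-2) ^ b) (Ψ b) m n' D

def wq (s Q : O) : ℝ := ∏ p ∈ (pf s).filter (· ∣ Q), N p ^ tb (-1 / 2) (1 / 2) 0 (vl p s % 6)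
def AdS (s Q s' : O) : Prop :=
  OP s' ∧ ∀ p ∈ pf s', p ∈ pf s ∧ p ∣ Q ∧ vl p s' % 6 = (8 - vl p s % 6) % 6

def DECStmt : Prop := ∀ s, OP s → ∃ (T : Finset O) (Ψ : O → O → ℂ) (T' : O → Finset O),
  (∀ k, sx k s = ∑ Q ∈ T, fs Q (Ψ Q) k) ∧ ∀ Q ∈ T, Cf Q (Ψ Q) ∧ Q ∣ rad s ∧
    (T' Q).card ≤ 2 ^ (pf s).card ∧ (∀ s' ∈ T' Q, AdS s Q s') ∧
    ∀ m n, IsCoprime m Q → IsCoprime n Q → ∃ z : O → ℂ, (∀ s', ‖z s'‖ ≤ wq s Q) ∧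
      ∀ D, du Q (Ψ Q) m n D = ∑ s' ∈ T' Q, z s' * sx D s'

def VS1Stmt : Prop := ∀ (κ : ℕ) (s ρ : O) (φ : O → ℂ), κ = 3 ∨ κ = 5 → OP s → P8 φ →
  ∃ (T : Finset O) (T' : O → Finset O) (Ψ : O → ℕ → O → O → ℂ),
  (∀ Q ∈ T, Prim Q ∧ Q ∣ rad s ∧ (T' Q).card ≤ 2 ^ (pf s).card ∧ ∀ s' ∈ T' Q, AdS s Q s') ∧
  (∀ h, Fm s h → (∀ Q ∈ T, ∀ b < 4, Cf (h * (Q * (-2) ^ b)) (Ψ Q b h)) ∧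
    ∀ k, tw κ h s φ k = ∑ Q ∈ T, ∑ b ∈ Finset.range 4, fs (h * (Q * (-2) ^ b)) (Ψ Q b h) k) ∧
  ∀ Q ∈ T, ∀ b < 4, ∀ (e : O) (n : ℕ), IsUnit e → ∃ φ', P8 φ' ∧ ∀ h, Fm s h → (8 : O) ∣ h - ρ →
    ∃ z : O → ℂ, (∀ s', ‖z s'‖ ≤ 64 * wq s Q) ∧ ∀ D,
      fs (h * (Q * (-2) ^ b)) (dl (h * (Q * (-2) ^ b)) (Ψ Q b h) (e * lam ^ n)) D =
        ∑ s' ∈ T' Q, z s' * tw (8 - κ) h s' φ' D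

/-- weight inequalities -/
def WQStmt : Prop := ∀ (q0 q2 q1 a0 a2 a1 γ : ℝ) (s Q s' : O), 0 ≤ q0 → 0 ≤ q2 → 0 ≤ q1 → 0 ≤ γ → 0 ≤ a0 →
  q2 - 1 / 2 + γ ≤ a0 → q0 + 1 / 2 + γ ≤ a2 → q1 + γ ≤ a1 → OP s → Prim Q → Q ∣ rad s → AdS s Q s' →
  wq s Q * mw (tb q0 q2 q1) s' * N Q ^ γ ≤ mw (tb a0 a2 a1) s ∧ rd s' ≤ rd s ∧ N Q ≤ rd s

def VSStmt : Prop := ∀ (p : ℕ) (θ ε : ℝ), 0 ≤ θ → 0 < ε → θ + ε < 1 → ∃ C : ℝ, 0 ≤ C ∧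
  ∀ (κ : ℕ) (J : ℤ) (H P R q0 q2 q1 a0 a2 a1 c0 c2 c1 : ℝ), κ = 3 ∨ κ = 5 → J = 1 ∨ J = -1 → 1 ≤ H →
  0 ≤ R → R ≤ P → 0 ≤ q0 → 0 ≤ q2 → 0 ≤ q1 → 0 ≤ a0 → 0 ≤ c0 →
  q2 - 1 / 2 ≤ a0 → q0 + 1 / 2 ≤ a2 → q1 ≤ a1 →
  q2 - 1 / 2 + 2 * θ ≤ c0 → q0 + 1 / 2 + 2 * θ ≤ c2 → q1 + 2 * θ ≤ c1 →
  (∀ (s' : O) (Z t : ℝ), OP s' → 0 < Z → FB (8 - κ) (-J) s' H Z t
    ((min 1 Z * (1 + Z) ^ ε * rd s' ^ ε * (P + R * mw (tb q0 q2 q1) s' * Z ^ θ) * (1 + |t|) ^ p) ^ 2)) →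
  ∀ (s : O) (Y t : ℝ), OP s → 0 < Y → FB κ J s H Y t
    ((C * rd s ^ (7 * ε) * (1 + H ^ 2 / Y) ^ (2 * ε) *
      (P * mw (tb a0 a2 a1) s + R * mw (tb c0 c2 c1) s * (H ^ 2 / Y) ^ θ) * (1 + |t|) ^ (p + 4)) ^ 2)

/-! ### Poisson step -/

def dd (κ : ℕ) (k1 k2 h : O) : ℂ := conj (sx h k1) ^ κ * sx h k2 ^ κ
def II (κ : ℕ) (k1 k2 m : O) : ℂ :=
  ((Real.sqrt (N (k1 * k2)) : ℂ))⁻¹ * ∑ h ∈ Rs (k1 * k2), dd κ k1 k2 h * eQ (-(m * h)) (k1 * k2)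
def tk (κ : ℕ) (k : O) : ℂ := (if κ = 1 then bb k else (‖bb k‖ : ℂ)) / (Real.sqrt (N k) : ℂ)
def Kn (κ : ℕ) (k1 k2 m : O) : ℂ := tk κ k1 * conj (tk κ k2) * II κ k1 k2 m / gam (k1 * k2)
def cl (κ : ℕ) (p : O) (j : ℕ) : ℝ :=
  if j = 1 then 1 else if j = 2 then 0 else 2 ^ (j + 1) * N p ^ (j + if κ = 1 ∧ j = 3 then 0 else j / 3)
def cE (κ : ℕ) (E : O) : ℝ := ∏ p ∈ pf E, cl κ p (vl p E)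
def Kl (κ : ℕ) (p m : O) (i j : ℕ) : ℂ :=
  Kn κ (p ^ i) (p ^ j) m + if i = j ∧ 1 ≤ i ∧ p ^ (i - 1) ∣ m then (cl κ p i : ℂ) else 0

structure KM : Prop where
  mul : ∀ κ a1 a2 b1 b2 m, κ = 1 ∨ κ = 3 → OP a1 → OP a2 → OP b1 → OP b2 → IsCoprime (a1 * a2) (b1 * b2) →
    Kn κ (a1 * b1) (a2 * b2) m = Kn κ a1 a2 m * Kn κ b1 b2 m
  one : ∀ κ m, Kn κ 1 1 m = 1
  herm : ∀ κ k1 k2 m, κ = 1 ∨ κ = 3 → OP k1 → OP k2 → Kn κ k2 k1 m = conj (Kn κ k1 k2 m)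
  scale : ∀ κ k1 k2 u m, OP k1 → OP k2 → IsCoprime u (k1 * k2) →
    II κ k1 k2 (u * m) = sx u k1 ^ κ * conj (sx u k2 ^ κ) * II κ k1 k2 m
  II_le : ∀ κ k1 k2 m, OP k1 → OP k2 → ‖II κ k1 k2 m‖ ≤ N k1 * N k2
  Kn_le : ∀ κ k1 k2 m, OP k1 → OP k2 → ‖Kn κ k1 k2 m‖ ≤ N k1 * N k2
  cE_le : ∀ κ E, OP E → 0 ≤ cE κ E ∧ cE κ E ≤ N E ^ 2
  pr1 : ∀ n m, OP n → Squarefree n →
    Kn 1 n 1 m = mu n * cub 2 n * conj (ang 1 (toC n)) * quad (-1) n * sx m n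
  pr3 : ∀ n m, OP n → Squarefree n → Kn 3 n 1 m = quad (-1) n * sx m n ^ 3

/-- local values of the kernel -/
structure LOC : Prop where
  supp : ∀ κ p m (i j : ℕ), κ = 1 ∨ κ = 3 → Prime p → OP p → 1 ≤ i + j → ¬ p ^ (i + j - 1) ∣ m →
    Kn κ (p ^ i) (p ^ j) m = 0
  two : ∀ κ p m (i j : ℕ), Prime p → OP p → i % 3 = 2 ∨ j % 3 = 2 → Kn κ (p ^ i) (p ^ j) m = 0
  le : ∀ κ p m (i j : ℕ), κ = 1 ∨ κ = 3 → Prime p → OP p →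
    ‖Kn κ (p ^ i) (p ^ j) m‖ ^ 2 ≤ N p ^ (i + j + i / 3 + j / 3)
  le' : ∀ κ p m (i j : ℕ), κ = 1 ∨ κ = 3 → Prime p → OP p → 1 ≤ i + j →
    (¬ 6 ∣ κ * (5 * i + j) ∨ ¬ p ^ (i + j) ∣ m) →
    ‖Kn κ (p ^ i) (p ^ j) m‖ ^ 2 ≤ N p ^ (i + j + i / 3 + j / 3 - 1)
  nontriv : ∀ κ p m (i j : ℕ), κ = 1 ∨ κ = 3 → Prime p → OP p → ¬ 6 ∣ κ * (5 * i + j) → p ^ (i + j) ∣ m →
    Kn κ (p ^ i) (p ^ j) m = 0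
  diag : ∀ κ p m (i : ℕ), κ = 1 ∨ κ = 3 → Prime p → OP p → 1 ≤ i → i % 3 ≠ 2 →
    Kn κ (p ^ i) (p ^ i) m = (N p : ℂ) ^ (i + i / 3) *
      ((if p ^ (2 * i) ∣ m then 1 else 0) - if p ^ (2 * i - 1) ∣ m then (N p : ℂ)⁻¹ else 0)
  unit : ∀ κ p m, κ = 1 ∨ κ = 3 → Prime p → OP p → ¬ p ∣ m → ‖Kn κ p 1 m‖ = 1

def al (κ : ℕ) (p m : O) (i : ℕ) : ℂ := if i = 0 then 1 else if i = 1 then Kn κ p 1 m else 0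

def PSDLStmt : Prop := ∀ κ p m (n : ℕ) (x : ℕ → ℂ), κ = 1 ∨ κ = 3 → Prime p → OP p →
  (if p ∣ m then 1 / 2 else 1 : ℝ) * ‖∑ i ∈ Finset.range n, x i * al κ p m i‖ ^ 2 ≤
    (∑ i ∈ Finset.range n, ∑ j ∈ Finset.range n, x i * conj (x j) * Kl κ p m i j).re

/-- Schur product -/
def SCHStmt : Prop := ∀ (ι α : Type) (P : Finset ι) (K : ι → ℕ → ℕ → ℂ) (a : ι → ℕ → ℂ) (c : ι → ℝ),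
  (∀ p ∈ P, 0 ≤ c p) → (∀ p ∈ P, ∀ i j, K p j i = conj (K p i j)) →
  (∀ p ∈ P, ∀ (n : ℕ) (x : ℕ → ℂ), c p * ‖∑ i ∈ Finset.range n, x i * a p i‖ ^ 2 ≤
    (∑ i ∈ Finset.range n, ∑ j ∈ Finset.range n, x i * conj (x j) * K p i j).re) →
  ∀ (T : Finset α) (v : α → ι → ℕ) (x : α → ℂ),
    (∏ p ∈ P, c p) * ‖∑ f ∈ T, x f * ∏ p ∈ P, a p (v f p)‖ ^ 2 ≤
      (∑ f ∈ T, ∑ g ∈ T, x f * conj (x g) * ∏ p ∈ P, K p (v f p) (v g p)).re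

def UD (E k : O) : Prop := E ∣ k ∧ IsCoprime E (k / E)

def EXPStmt : Prop := ∀ κ k1 k2 m (P D : Finset O), κ = 1 ∨ κ = 3 → OP k1 → OP k2 →
  (∀ p ∈ P, Prime p ∧ OP p) → pf k1 ⊆ P → pf k2 ⊆ P → (∀ E ∈ D, OP E) → (∀ E, Prim E → E ∣ k1 → E ∈ D) →
  (∏ p ∈ P, Kl κ p m (vl p k1) (vl p k2) = ∑ E ∈ D,
    if UD E k1 ∧ UD E k2 ∧ fl E ∣ m then (cE κ E : ℂ) * Kn κ (k1 / E) (k2 / E) m else 0) ∧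
  ∏ p ∈ P, al κ p m (vl p k1) = if Squarefree k1 then Kn κ k1 1 m else 0

def QF (κ : ℕ) (x : O → ℂ) (E m : O) : ℂ := ∑' k : O × O,
  if OP k.1 ∧ OP k.2 ∧ IsCoprime k.1 E ∧ IsCoprime k.2 E then
    x (E * k.1) * conj (x (E * k.2)) * Kn κ k.1 k.2 m else 0
def QE (κ : ℕ) (x : O → ℂ) (m E : O) : ℝ := if OP E ∧ fl E ∣ m then cE κ E * (QF κ x E m).re else 0
def prim1 (κ : ℕ) (x : O → ℂ) (m : O) : ℂ := ∑' n, if OP n ∧ Squarefree n then x n * Kn κ n 1 m else 0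

def PSDStmt : Prop := ∀ (κ : ℕ) (x : O → ℂ), κ = 1 ∨ κ = 3 → Summable (fun k => ‖x k‖ * N k ^ 6) →
  (∃ g : O → ℝ, Summable g ∧ ∀ m E, OP E → cE κ E * ‖QF κ x E m‖ ≤ g E) ∧
  ∀ m, 0 ≤ ∑' E, QE κ x m E ∧ (m ≠ 0 → ‖prim1 κ x m‖ ^ 2 ≤ 2 ^ (pf m).card * ∑' E, QE κ x m E)

/-- the dual expression -/
def DU (κ : ℕ) (y : O → ℂ) (M : ℝ) (σ : ℝ) (h : O) : ENNReal :=
  ∫⁻ u : ℝ, ‖Gamma (σ + u * I)‖ₑ * ENNReal.ofReal ((sg * M * N h) ^ (-σ)) *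
    ‖∑' k, y k * conj (sx h k) ^ κ * (N k : ℂ) ^ (-1 / 2 + σ + u * I)‖ₑ ^ 2

def PS1Stmt : Prop := ∀ (κ : ℕ) (y : O → ℂ) (M : ℝ) (σ : O → ℝ), κ ≠ 0 → 0 < M → (∀ k, y k ≠ 0 → OP k) →
  Summable (fun k => ‖y k‖ * N k ^ 6) → (∀ h, 0 < σ h ∧ σ h ≤ 4) →
  ‖∑' m : O, (Real.exp (-(N m / M)) : ℂ) * ∑' k : O × O, y k.1 * conj (y k.2) * II κ k.1 k.2 m‖ₑ ≤
    ENNReal.ofReal (4 * M) * (‖y 1‖ₑ ^ 2 + ∑' h : O, if h = 0 then 0 else DU κ y M (σ h) h)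

def yE (κ : ℕ) (x : O → ℂ) (E k : O) : ℂ :=
  if OP k ∧ IsCoprime k E then x (E * k) * tk κ k * sx (fl E) k ^ κ else 0

def PS2Stmt : Prop := ∀ ε : ℝ, 0 < ε → ∃ C : ℝ, 0 ≤ C ∧ ∀ (κ : ℕ) (x : O → ℂ) (ρ : O) (M : ℝ) (σ : O → O → ℝ)
  (S : Finset O), κ = 1 ∨ κ = 3 → 1 ≤ M → (∀ k, x k ≠ 0 → (4 : O) ∣ k - ρ) →
  Summable (fun k => ‖x k‖ * N k ^ 7) → (∀ E h, 0 < σ E h ∧ σ E h ≤ 4) → (∀ m ∈ S, m ≠ 0 ∧ N m ≤ M) →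
  ENNReal.ofReal (∑ m ∈ S, ‖prim1 κ x m‖ ^ 2) ≤ ENNReal.ofReal (C * M ^ ε) *
    ∑' E : O, if OP E then ENNReal.ofReal (cE κ E * (M / N (fl E))) *
      (‖x E‖ₑ ^ 2 + ∑' h : O, if h = 0 then 0 else DU κ (yE κ x E) (M / N (fl E)) (σ E h) h) else 0

def xx (κ : ℕ) (J : ℤ) (r ρ s : O) (φ : O → ℂ) (Z t : ℝ) (k : O) : ℂ :=
  if (27 : O) ∣ k - r ∧ (4 : O) ∣ k - ρ ∧ OP k then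
    (if κ = 1 then 1 else bb k / (‖bb k‖ : ℂ)) * ang J (toC k) * sx k s * φ k *
      (N k : ℂ) ^ (-(1 / 2 + t * I)) * VV Z (N k) else 0
def kd (κ : ℕ) : ℕ := if κ = 1 then 5 else 3
def sE (κ : ℕ) (s E h : O) : O := s * fl E ^ κ * rad E ^ 6 * (if κ = 1 then 1 else E ^ 2) * h ^ kd κ
/-- a family of weights depending only on the class mod 4 of the family member -/
def P84 (φ : O → O → ℂ) : Prop := (∀ h, P8 (φ h)) ∧ ∀ h h', (4 : O) ∣ h - h' → φ h = φ h'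

def PS3Stmt : Prop := ∀ (κ : ℕ) (J : ℤ) (r ρ s : O) (φ : O → ℂ) (Z t : ℝ) (E e : O) (a b : ℕ) (h' : O),
  κ = 1 ∨ κ = 3 → OP s → P8 φ → 0 < Z → OP E → IsUnit e → OP h' →
  ∃ (r' : O) (φ' : O → O → ℂ), P84 φ' ∧ ∀ (h0 : O) (σ u : ℝ), OP h0 →
    ‖∑' k, yE κ (xx κ J r ρ s φ Z t) E k * conj (sx (e * lam ^ a * 2 ^ b * h' * h0) k) ^ κ *
        (N k : ℂ) ^ (-1 / 2 + σ + u * I)‖ ≤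
      N E ^ (-1 / 2 : ℝ) * (Z / N E) ^ (σ - 1 / 2) * Real.exp ((σ - 1 / 2) ^ 2 / 4) *
        ‖TT J r' (tw (kd κ) h0 (sE κ s E h') (φ' h0)) (Z / N E * Real.exp ((σ - 1 / 2) / 2))
          (1 / 2 + (t - u : ℝ) * I)‖

/-- shape of the family bound fed into the Poisson step -/
def FBH (κ : ℕ) (J : ℤ) (p : ℕ) (D ε α θ : ℝ) (a c : ℕ → ℝ) : Prop :=
  ∀ (s : O) (H Y t : ℝ), OP s → 1 ≤ H → 0 < Y → FB κ J s H Y t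
    ((D * (rd s * H * (1 + H ^ 2 / Y)) ^ ε *
      (Real.sqrt H * mw a s + H ^ α * mw c s * (H ^ 2 / Y) ^ θ) * (1 + |t|) ^ p) ^ 2)

def PS4Stmt : Prop := ∀ (p : ℕ) (ε α θ : ℝ), 0 < ε → ε ≤ 1 / 100 → 0 ≤ α → 0 ≤ θ → 2 * α + 4 * θ ≤ 7 / 2 →
  ∃ C : ℝ, 0 ≤ C ∧ ∀ (κ : ℕ) (J : ℤ) (D : ℝ) (a c : ℕ → ℝ) (s r : O) (φ : O → O → ℂ) (Z M H t : ℝ),
  FBH κ J p D ε α θ a c → OP s → P84 φ → 0 < Z → 0 < M → H = Z ^ 2 / M →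
  (∑' h : O, if Fm s h then ∫⁻ u : ℝ, ‖Gamma ((if N h ≤ H then ε else 4 : ℝ) + u * I)‖ₑ *
      ENNReal.ofReal ((sg * M * N h) ^ (-(if N h ≤ H then ε else 4 : ℝ))) *
      ENNReal.ofReal ((Z ^ ((if N h ≤ H then ε else 4 : ℝ) - 1 / 2) *
        Real.exp (((if N h ≤ H then ε else 4 : ℝ) - 1 / 2) ^ 2 / 4) *
        ‖TT J r (tw κ h s (φ h)) (Z * Real.exp (((if N h ≤ H then ε else 4 : ℝ) - 1 / 2) / 2))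
          (1 / 2 + (t - u : ℝ) * I)‖) ^ 2) else 0) ≤
    ENNReal.ofReal (C * D ^ 2 * Z⁻¹ * rd s ^ (2 * ε) * ((1 + H) * (1 + H ^ 2 / Z)) ^ (3 * ε) *
      min 1 H ^ (1 / 4 : ℝ) * (H * min 1 H * mw a s ^ 2 + H ^ (2 * α + 4 * θ) * Z ^ (-2 * θ) * mw c s ^ 2) *
      (1 + |t|) ^ (2 * p))

/-- fixed part of the dual variable -/
def Fix (s E h : O) : Prop := OP h ∧ ∀ p ∈ pf h, p ^ 2 ∣ h ∨ p ∣ s * E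

def SPLStmt : Prop := ∀ (s E : O) (f : O → ENNReal), OP s → OP E →
  (∑' h : O, if h = 0 then 0 else f h) ≤ ∑ e ∈ U6, ∑' a : ℕ, ∑' b : ℕ, ∑' h' : O,
    if Fix s E h' then ∑' h0 : O,
      if Fm (s * E * h') h0 then f (e * lam ^ a * 2 ^ b * h' * h0) else 0 else 0

def G1 (κ : ℕ) (δ : ℝ) (a : ℕ → ℝ) (s E h : O) : ℝ :=
  cE κ E / N (fl E) * (N (fl E) / (N E ^ 2 * N h)) ^ (1 + δ) * mw a (sE κ s E h) ^ 2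
def G2 (κ : ℕ) (g θ : ℝ) (c : ℕ → ℝ) (s E h : O) : ℝ :=
  cE κ E / N (fl E) * (N (fl E) / (N E ^ 2 * N h)) ^ g * N E ^ (2 * θ) * mw c (sE κ s E h) ^ 2
def SumB (s : O) (G : O → O → ℝ) (A : ℝ) : Prop := ∀ T : Finset (O × O),
  (∀ x ∈ T, OP x.1 ∧ IsCoprime x.1 s ∧ Fix s x.1 x.2) → ∑ x ∈ T, G x.1 x.2 ≤ A

/-- Euler product bound -/
def EULStmt : Prop := ∀ (g : O → ℕ → ℕ → ℝ) (G : O → ℝ) (T : Finset (O × O)),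
  (∀ p j v, 0 ≤ g p j v) → (∀ p, 0 ≤ G p) → Summable G →
  (∀ p (n : ℕ), Prime p → OP p → ∑ j ∈ Finset.range n, ∑ v ∈ Finset.range n,
    (if j = 0 ∧ v = 0 then 0 else g p j v) ≤ G p) → (∀ x ∈ T, OP x.1 ∧ OP x.2) →
  ∑ x ∈ T, ∏ p ∈ pf (x.1 * x.2), g p (vl p x.1) (vl p x.2) ≤ Real.exp (∑' p, G p)

def SUM0Stmt : Prop := ∀ δ : ℝ, 0 < δ → ∃ C : ℝ, ∀ (κ : ℕ) (T : Finset O), (∀ E ∈ T, OP E) →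
  ∑ E ∈ T, cE κ E / N (fl E) * N E ^ (-1 - δ) ≤ C
def SUMAStmt : Prop := ∃ C : ℝ, 0 ≤ C ∧ ∀ δ : ℝ, 0 ≤ δ →
  SumB 1 (G1 1 δ (tb (1 / 14) (11 / 14) (3 / 7)) 1) C ∧
  SumB 1 (G2 1 (18 / 7) (9 / 14) (tb (19 / 14) (29 / 14) (12 / 7)) 1) C
def SUMBStmt : Prop := ∀ δ : ℝ, 0 < δ → ∃ C : ℝ, 0 ≤ C ∧ ∀ s, OP s →
  SumB s (G1 3 δ (tb 0 (1 / 2) 0) s) (C * rd s ^ δ * mw (tb 0 (1 / 2) 0) s ^ 2) ∧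
  SumB s (G2 3 (7 / 2) (3 / 4) (tb 1 2 (3 / 2)) s) (C * rd s ^ δ * mw (tb 1 2 (3 / 2)) s ^ 2)

def PSStmt : Prop := ∀ (p : ℕ) (ε α θ : ℝ), 0 < ε → ε ≤ 1 / 100 → 0 ≤ α → 1 / 4 ≤ θ → 2 * α + 4 * θ ≤ 7 / 2 →
  ∃ C : ℝ, 0 ≤ C ∧ ∀ (κ : ℕ) (J : ℤ) (D : ℝ) (a c : ℕ → ℝ) (r ρ s : O) (φ : O → ℂ) (Z M t A1 A2 : ℝ)
  (S : Finset O), κ = 1 ∨ κ = 3 → FBH (kd κ) J p D ε α θ a c → OP s → P8 φ → 1 ≤ Z → 1 ≤ M → 1 ≤ D →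
  SumB s (G1 κ ε a s) A1 → SumB s (G2 κ (2 * α + 4 * θ) θ c s) A2 → (∀ m ∈ S, m ≠ 0 ∧ N m ≤ M) →
  ∑ m ∈ S, ‖prim1 κ (xx κ J r ρ s φ Z t) m‖ ^ 2 ≤ C * D ^ 2 * (rd s * M * Z) ^ (40 * ε) *
    (M + Z * A1 + M / Z * (Z ^ 2 / M) ^ (2 * α + 4 * θ) * Z ^ (-2 * θ) * A2) * (1 + |t|) ^ (2 * p)

/-- level 2 input -/
def F3Stmt : Prop := ∀ ε : ℝ, 0 < ε → ∃ D : ℝ, 1 ≤ D ∧ ∀ J : ℤ, J = 1 ∨ J = -1 →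
  FBH 3 J 4 D ε (1 / 4) (3 / 4) (tb 0 (1 / 2) 0) (tb 1 2 (3 / 2))

def L2Stmt : Prop := ∀ ε : ℝ, 0 < ε → ∃ C : ℝ, 0 ≤ C ∧ ∀ (J : ℤ) (s : O) (H Z t : ℝ), J = 1 ∨ J = -1 → OP s →
  1 ≤ H → 0 < Z → PB 3 J s H Z t ((min 1 Z * (1 + Z) ^ ε * (C * (rd s * H) ^ ε * (1 + |t|) ^ 4 * Real.sqrt H +
    C * (rd s * H) ^ ε * (1 + |t|) ^ 4 * mw (tb (2 / 7) (4 / 7) (3 / 7)) s * Z ^ (9 / 14 : ℝ))) ^ 2)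

/-- level 1 input -/
def F5Stmt : Prop := ∀ ε : ℝ, 0 < ε → ∃ D : ℝ, 1 ≤ D ∧
  FBH 5 1 8 D ε 0 (9 / 14) (tb (1 / 14) (11 / 14) (3 / 7)) (tb (19 / 14) (29 / 14) (12 / 7))

def Smu (r ρ m : O) (Y : ℝ) : ℂ := ∑' n : O, if (27 : O) ∣ n - r ∧ (4 : O) ∣ n - ρ ∧ OP n then
  mu n * sx m n * (N n : ℂ) ^ (-(1 / 2 : ℂ)) * VV Y (N n) else 0

def L1Stmt : Prop := ∀ ε : ℝ, 0 < ε → ∃ C : ℝ, 0 ≤ C ∧ ∀ (r ρ : O) (Y M : ℝ) (S : Finset O), 1 ≤ Y → 1 ≤ M →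
  (∀ m ∈ S, m ≠ 0 ∧ N m ≤ M) →
  ∑ m ∈ S, ‖Smu r ρ m Y‖ ^ 2 ≤ C * (M * Y) ^ ε * (M + Y + Y ^ (20 / 7 : ℝ) * M ^ (-11 / 7 : ℝ))

def Smu0 (Y : ℝ) : ℂ := ∑' n : O, if OP n then mu n * (N n : ℂ) ^ (-(1 / 2 : ℂ)) * VV Y (N n) else 0

def AMPStmt : Prop := ∀ β : ℝ, 25 / 54 < β → ∃ C : ℝ, ∀ Y : ℝ, 1 ≤ Y → ‖Smu0 Y‖ ≤ C * Y ^ β

def FINStmt : Prop := ∀ β : ℝ, 0 ≤ β → (∃ C : ℝ, ∀ Y : ℝ, 1 ≤ Y → ‖Smu0 Y‖ ≤ C * Y ^ β) →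
  ∀ s : ℂ, 1 / 2 + β < s.re → riemannZeta s ≠ 0

end Vale.Agent.P026
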